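import Vale.Agent.P100.MovingSphere

/-!
Calculus for the linear case of the Hénon-Lane-Emden system: radial products, test functions,
integration by parts off the origin and a weighted mean value inequality.
-/

open Set Filter Metric Laplacian InnerProductSpace Real MeasureTheory Function
open scoped Topology RealInnerProductSpace ContDiff

namespace Vale.Agent.P100.Linear

noncomputable section

/-- The positive part to the power `k`. -/
def pp (k : ℕ) (t : ℝ) : ℝ := max t 0 ^ k

theorem pp_nonneg (k : ℕ) (t : ℝ) : 0 ≤ pp k t := pow_nonneg (le_max_right _ _) k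

theorem pp_eq_zero {k : ℕ} (hk : k ≠ 0) {t : ℝ} (ht : t ≤ 0) : pp k t = 0 := by
  simp [pp, max_eq_right ht, hk]

theorem hasDerivAt_pp (k : ℕ) (t : ℝ) : HasDerivAt (pp (k + 2)) ((k + 2) * pp (k + 1) t) t := by
  rcases lt_trichotomy t 0 with h | h | h
  · rw [pp_eq_zero (by omega) h.le, mul_zero]
    refine (hasDerivAt_const t (0 : ℝ)).congr_of_eventuallyEq ?_
    filter_upwards [eventually_le_nhds h] with s hs using pp_eq_zero (by omega) hs
  · subst h
    rw [pp_eq_zero (by omega) le_rfl, mul_zero, hasDerivAt_iff_isLittleO_nhds_zero]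
    have h1 : ∀ s : ℝ, ‖pp (k + 2) (0 + s) - pp (k + 2) 0 - s • (0 : ℝ)‖ ≤ 1 * ‖s ^ (k + 2)‖ := by
      intro s
      rw [zero_add, pp_eq_zero (k := k + 2) (by omega) (le_refl 0), smul_zero, sub_zero, sub_zero,
        one_mul, norm_pow, Real.norm_eq_abs, Real.norm_eq_abs, abs_of_nonneg (pp_nonneg _ _)]
      exact pow_le_pow_left₀ (le_max_right _ _) (max_le (le_abs_self s) (abs_nonneg s)) _
    refine (Asymptotics.IsBigO.of_bound 1 (Eventually.of_forall h1)).trans_isLittleO ?_
    simpa using Asymptotics.isLittleO_pow_pow (𝕜 := ℝ) (show 1 < k + 2 by omega)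
  · have : HasDerivAt (fun s : ℝ => s ^ (k + 2)) ((k + 2) * pp (k + 1) t) t := by
      simpa [pp, max_eq_left h.le] using hasDerivAt_pow (k + 2) t
    refine this.congr_of_eventuallyEq ?_
    filter_upwards [eventually_ge_nhds h] with s hs
    simp [pp, max_eq_left hs]

theorem continuous_pp (k : ℕ) : Continuous (pp k) := by unfold pp; fun_prop

theorem contDiff_pp (k : ℕ) : ContDiff ℝ 2 (pp (k + 3)) := by
  have h1 : ∀ j : ℕ, ContDiff ℝ 1 (pp (j + 2)) := fun j => by
    rw [contDiff_one_iff_deriv]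
    refine ⟨fun t => (hasDerivAt_pp j t).differentiableAt, ?_⟩
    rw [show deriv (pp (j + 2)) = fun t => ((j : ℝ) + 2) * pp (j + 1) t from
      funext fun t => (hasDerivAt_pp j t).deriv]
    exact continuous_const.mul (continuous_pp _)
  rw [show (2 : WithTop ℕ∞) = 1 + 1 by norm_num, contDiff_succ_iff_deriv]
  refine ⟨fun t => (hasDerivAt_pp (k + 1) t).differentiableAt, by simp, ?_⟩
  rw [show deriv (pp (k + 3)) = fun t => (((k + 1 : ℕ) : ℝ) + 2) * pp (k + 2) t from
    funext fun t => (hasDerivAt_pp (k + 1) t).deriv]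
  exact contDiff_const.mul (h1 k)

variable {n : ℕ}

/-- The Laplacian of a product with a radial function. -/
theorem laplacian_radial_mul {φ d1 : ℝ → ℝ} {d2 : ℝ} {u : EuclideanSpace ℝ (Fin n) → ℝ}
    {x : EuclideanSpace ℝ (Fin n)} (hφ : ContDiffAt ℝ 2 φ (‖x‖ ^ 2))
    (h1 : ∀ᶠ s in 𝓝 (‖x‖ ^ 2), HasDerivAt φ (d1 s) s) (h2 : HasDerivAt d1 d2 (‖x‖ ^ 2))
    (hu : ContDiffAt ℝ 2 u x) :
    ContDiffAt ℝ 2 (fun y => φ (‖y‖ ^ 2) * u y) x ∧ Δ (fun y => φ (‖y‖ ^ 2) * u y) x =
      (4 * d2 * ‖x‖ ^ 2 + 2 * n * d1 (‖x‖ ^ 2)) * u x + 4 * d1 (‖x‖ ^ 2) * fderiv ℝ u x x +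
        φ (‖x‖ ^ 2) * Δ u x := by
  have hn : ContDiffAt ℝ 2 (fun z : EuclideanSpace ℝ (Fin n) => ‖z‖ ^ 2) x :=
    (contDiff_norm_sq ℝ).contDiffAt
  have hc : ContDiffAt ℝ 2 (fun y => φ (‖y‖ ^ 2) * u y) x :=
    (ContDiffAt.comp (g := φ) x hφ hn).mul hu
  refine ⟨hc, ?_⟩
  set b := EuclideanSpace.basisFun (Fin n) ℝ
  set S := ‖x‖ ^ 2 with hS
  set D := fderiv ℝ u x with hD
  have key : ∀ i, iteratedFDeriv ℝ 2 (fun y => φ (‖y‖ ^ 2) * u y) x ![b i, b i] =
      (4 * d2 * ⟪x, b i⟫ ^ 2 + 2 * d1 S) * u x + 4 * d1 S * (⟪x, b i⟫ * D (b i)) +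
        φ S * iteratedFDeriv ℝ 2 u x ![b i, b i] := by
    intro i
    set e := b i with he
    set ξ := ⟪x, e⟫ with hξ
    set σ : ℝ → ℝ := fun t => ‖x + t • e‖ ^ 2 with hσd
    have hσ : ∀ t, σ t = S + 2 * ξ * t + t ^ 2 := fun t => by
      simp only [hσd]
      rw [norm_add_sq_real, real_inner_smul_right, norm_smul, b.orthonormal.1 i, mul_one,
        Real.norm_eq_abs, sq_abs, ← hξ, ← hS]
      ring
    have hσ' : ∀ t, HasDerivAt σ (2 * ξ + 2 * t) t := fun t => by
      rw [funext hσ]
      exact ((((hasDerivAt_id t).const_mul (2 * ξ)).const_add S).add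
        (hasDerivAt_pow 2 t)).congr_deriv (by simp)
    have hσ0 : σ 0 = S := by simp [hσd, hS]
    obtain ⟨q', hq, hq'⟩ := line_deriv (e := e) hu
    obtain ⟨r', hr, hr'⟩ := line_deriv (e := e) hc
    have hφ' : ∀ᶠ t in 𝓝 (0 : ℝ), HasDerivAt φ (d1 (σ t)) (σ t) :=
      (hσ' 0).continuousAt.eventually (by rw [hσ0]; exact h1)
    set Q : ℝ → ℝ := fun t =>
      d1 (σ t) * (2 * ξ + 2 * t) * u (x + t • e) + φ (σ t) * q' t with hQd
    have hQ : ∀ᶠ t in 𝓝 (0 : ℝ), HasDerivAt (fun t => φ (σ t) * u (x + t • e)) (Q t) t := by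
      filter_upwards [hq, hφ'] with t ht ht'
      exact (ht'.comp t (hσ' t)).mul ht
    have hq0 : q' 0 = D e := by
      have hd : HasDerivAt (fun t : ℝ => x + t • e) e 0 := by
        simpa using ((hasDerivAt_id (0 : ℝ)).smul_const e).const_add x
      exact hq.self_of_nhds.unique
        ((hu.differentiableAt (by norm_num)).hasFDerivAt.comp_hasDerivAt_of_eq 0 hd (by simp))
    have hl : HasDerivAt (fun t : ℝ => 2 * ξ + 2 * t) 2 0 := by
      simpa using ((hasDerivAt_id (0 : ℝ)).const_mul 2).const_add (2 * ξ)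
    have hd1 : HasDerivAt (fun t => d1 (σ t)) (d2 * (2 * ξ)) 0 :=
      (HasDerivAt.comp (h₂ := d1) 0 (by rw [hσ0]; exact h2) (hσ' 0)).congr_deriv (by simp)
    have hφ0 : HasDerivAt (fun t => φ (σ t)) (d1 S * (2 * ξ)) 0 :=
      (hφ'.self_of_nhds.comp 0 (hσ' 0)).congr_deriv (by simp [hσ0])
    have hQ' : HasDerivAt Q ((d2 * (2 * ξ) * (2 * ξ) + d1 S * 2) * u x + d1 S * (2 * ξ) * D e +
        (d1 S * (2 * ξ) * D e + φ S * iteratedFDeriv ℝ 2 u x ![e, e])) 0 :=
      (((hd1.mul hl).mul hq.self_of_nhds).add (hφ0.mul hq')).congr_deriv (by simp [hσ0, hq0])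
    have heq : r' =ᶠ[𝓝 0] Q := by
      filter_upwards [hr, hQ] with t h h' using h.unique h'
    rw [(hr'.congr_of_eventuallyEq heq.symm).unique hQ']
    ring
  have hx1 : ∑ i, ⟪x, b i⟫ • b i = x := by
    simp_rw [real_inner_comm (b _) x]; exact b.sum_repr' x
  have e3 : ∑ i, ⟪x, b i⟫ * D (b i) = D x := by
    conv_rhs => rw [← hx1, map_sum]
    simp
  rw [laplacian_eq_iteratedFDeriv_orthonormalBasis _ b]
  simp only [key, Finset.sum_add_distrib]
  have e4 : ∑ i, 4 * d1 S * (⟪x, b i⟫ * D (b i)) = 4 * d1 S * D x := by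
    rw [← Finset.mul_sum, e3]
  have e5 : ∑ i, φ S * iteratedFDeriv ℝ 2 u x ![b i, b i] = φ S * Δ u x := by
    rw [← Finset.mul_sum, laplacian_eq_iteratedFDeriv_orthonormalBasis u b]
  rw [e4, e5, ← Finset.sum_mul, Finset.sum_add_distrib, ← Finset.mul_sum, b.sum_sq_inner_left]
  simp [hS, mul_left_comm, mul_assoc]

/-- A continuous function on a compact set, zero outside, is integrable. -/
theorem integrable_supp {g : EuclideanSpace ℝ (Fin n) → ℝ} {K : Set (EuclideanSpace ℝ (Fin n))}
    (hK : IsCompact K) (hg : ∀ y ∈ K, ContinuousAt g y) (h0 : ∀ y, y ∉ K → g y = 0) :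
    Integrable g :=
  (integrableOn_iff_integrable_of_support_subset
    (support_subset_iff'.2 h0)).1
    (ContinuousOn.integrableOn_compact hK fun y hy => (hg y hy).continuousWithinAt)

/-- The partial derivative is continuously differentiable once. -/
theorem contDiffAt_partial {g : EuclideanSpace ℝ (Fin n) → ℝ} {y : EuclideanSpace ℝ (Fin n)}
    (hg : ContDiffAt ℝ 2 g y) (e : EuclideanSpace ℝ (Fin n)) :
    ContDiffAt ℝ 1 (fun z => fderiv ℝ g z e) y :=
  (hg.fderiv_right (by norm_num)).clm_apply contDiffAt_const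

theorem laplacian_eq_sum {g : EuclideanSpace ℝ (Fin n) → ℝ} {y : EuclideanSpace ℝ (Fin n)}
    (hg : ContDiffAt ℝ 2 g y) :
    Δ g y = ∑ i, fderiv ℝ (fun z => fderiv ℝ g z (EuclideanSpace.basisFun (Fin n) ℝ i)) y
      (EuclideanSpace.basisFun (Fin n) ℝ i) := by
  rw [laplacian_eq_iteratedFDeriv_orthonormalBasis g (EuclideanSpace.basisFun (Fin n) ℝ)]
  refine Finset.sum_congr rfl fun i _ => ?_
  have hd : DifferentiableAt ℝ (fderiv ℝ g) y :=
    (hg.fderiv_right (m := 1) le_rfl).differentiableAt one_ne_zero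
  rw [fderiv_clm_apply hd (differentiableAt_const _)]
  simp [iteratedFDeriv_two_apply]

theorem continuousAt_laplacian {g : EuclideanSpace ℝ (Fin n) → ℝ} {y : EuclideanSpace ℝ (Fin n)}
    (hg : ContDiffAt ℝ 2 g y) : ContinuousAt (Δ g) y := by
  have h : Δ g =ᶠ[𝓝 y] fun z => ∑ i,
      fderiv ℝ (fun z => fderiv ℝ g z (EuclideanSpace.basisFun (Fin n) ℝ i)) z
        (EuclideanSpace.basisFun (Fin n) ℝ i) := by
    filter_upwards [hg.eventually (by norm_num)] with z hz using laplacian_eq_sum hz
  refine ContinuousAt.congr ?_ h.symm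
  exact tendsto_finsetSum _ fun i _ =>
    (((contDiffAt_partial hg _).continuousAt_fderiv one_ne_zero).clm_apply continuousAt_const)

/-- Integration by parts in one direction, only near the support of the test function. -/
theorem ibp {F g : EuclideanSpace ℝ (Fin n) → ℝ} {K : Set (EuclideanSpace ℝ (Fin n))}
    (hK : IsCompact K) (hF : ContDiff ℝ 1 F) (h0 : ∀ y, y ∉ K → F y = 0)
    (hg : ∀ y ∈ K, ContDiffAt ℝ 1 g y) (e : EuclideanSpace ℝ (Fin n)) :
    ∫ y, F y * fderiv ℝ g y e = -∫ y, fderiv ℝ F y e * g y := by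
  have hts : tsupport F ⊆ K := closure_minimal (support_subset_iff'.2 h0) hK.isClosed
  have hd0 : ∀ y, y ∉ K → fderiv ℝ F y e = 0 := fun y hy => by
    rw [(notMem_tsupport_iff_eventuallyEq.1 fun h => hy (hts h)).fderiv_eq]
    simp
  refine integral_mul_fderiv_eq_neg_fderiv_mul_of_integrable ?_ ?_ ?_
    (fun y _ => hF.differentiable one_ne_zero y)
    (fun y hy => (hg y (hts hy)).differentiableAt one_ne_zero)
  · exact integrable_supp hK (fun y hy =>
      ((hF.continuous_fderiv one_ne_zero).clm_apply continuous_const).continuousAt.mul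
        (hg y hy).continuousAt) fun y hy => by simp [hd0 y hy]
  · exact integrable_supp hK (fun y hy => hF.continuous.continuousAt.mul
      (((hg y hy).continuousAt_fderiv one_ne_zero).clm_apply continuousAt_const))
      fun y hy => by simp [h0 y hy]
  · exact integrable_supp hK (fun y hy => hF.continuous.continuousAt.mul (hg y hy).continuousAt)
      fun y hy => by simp [h0 y hy]

/-- Green's identity against a compactly supported test function. -/
theorem green {F g : EuclideanSpace ℝ (Fin n) → ℝ} {K : Set (EuclideanSpace ℝ (Fin n))}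
    (hK : IsCompact K) (hF : ContDiff ℝ 2 F) (h0 : ∀ y, y ∉ K → F y = 0)
    (hg : ∀ y ∈ K, ContDiffAt ℝ 2 g y) :
    ∫ y, F y * Δ g y = ∫ y, Δ F y * g y := by
  set b := EuclideanSpace.basisFun (Fin n) ℝ with hb
  set D : (EuclideanSpace ℝ (Fin n) → ℝ) → Fin n → EuclideanSpace ℝ (Fin n) → ℝ :=
    fun f i y => fderiv ℝ (fun z => fderiv ℝ f z (b i)) y (b i) with hD
  have hts : tsupport F ⊆ K := closure_minimal (support_subset_iff'.2 h0) hK.isClosed
  have hF' : ∀ i, ContDiff ℝ 1 (fun z => fderiv ℝ F z (b i)) := fun i =>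
    contDiff_iff_contDiffAt.2 fun y => contDiffAt_partial hF.contDiffAt _
  have hd0 : ∀ i y, y ∉ K → fderiv ℝ F y (b i) = 0 := fun i y hy => by
    rw [(notMem_tsupport_iff_eventuallyEq.1 fun h => hy (hts h)).fderiv_eq]
    simp
  have h1 : ∫ y, F y * Δ g y = ∑ i, ∫ y, F y * D g i y := by
    rw [← integral_finsetSum]
    · refine integral_congr_ae (Eventually.of_forall fun y => ?_)
      by_cases hy : y ∈ K
      · simp only [hD, hb]
        rw [laplacian_eq_sum (hg y hy), Finset.mul_sum]
      · simp [h0 y hy]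
    · exact fun i _ => integrable_supp hK (fun y hy => hF.continuous.continuousAt.mul
        (((contDiffAt_partial (hg y hy) _).continuousAt_fderiv one_ne_zero).clm_apply
          continuousAt_const)) fun y hy => by simp [h0 y hy]
  have h2 : ∫ y, Δ F y * g y = ∑ i, ∫ y, D F i y * g y := by
    rw [← integral_finsetSum]
    · refine integral_congr_ae (Eventually.of_forall fun y => ?_)
      simp only [hD, hb]
      rw [laplacian_eq_sum hF.contDiffAt, Finset.sum_mul]
    · refine fun i _ => integrable_supp hK (fun y hy =>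
        (((hF' i).continuous_fderiv one_ne_zero).clm_apply continuous_const).continuousAt.mul
          (hg y hy).continuousAt) fun y hy => ?_
      have : (fun z => fderiv ℝ F z (b i)) =ᶠ[𝓝 y] fun _ => 0 := by
        filter_upwards [hK.isClosed.isOpen_compl.mem_nhds hy] with z hz using hd0 i z hz
      simp [hD, this.fderiv_eq]
  rw [h1, h2]
  refine Finset.sum_congr rfl fun i _ => ?_
  rw [hD]
  simp only
  rw [ibp hK (hF.of_le (by norm_num)) h0 (fun y hy => contDiffAt_partial (hg y hy) _) (b i)]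
  have h3 := ibp hK (hF' i) (hd0 i) (fun y hy => (hg y hy).of_le (by norm_num)) (b i)
  linarith

/-- The weight of the mean value inequality. -/
def wgt (y : EuclideanSpace ℝ (Fin n)) : ℝ := 4 * pp 3 (1 - ‖y‖ ^ 2)

/-- Its potential: `∇ pot = - wgt y • y`. -/
def pot (y : EuclideanSpace ℝ (Fin n)) : ℝ := pp 4 (1 - ‖y‖ ^ 2) / 2

theorem contDiff_wgt : ContDiff ℝ 2 (wgt (n := n)) :=
  contDiff_const.mul ((contDiff_pp 0).comp (contDiff_const.sub (contDiff_norm_sq ℝ)))

theorem contDiff_pot : ContDiff ℝ 2 (pot (n := n)) :=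
  ((contDiff_pp 1).comp (contDiff_const.sub (contDiff_norm_sq ℝ))).div_const 2

theorem wgt_zero {y : EuclideanSpace ℝ (Fin n)} (hy : y ∉ closedBall 0 1) : wgt y = 0 := by
  rw [mem_closedBall_zero_iff, not_le] at hy
  rw [wgt, pp_eq_zero (by norm_num) (by nlinarith), mul_zero]

theorem pot_zero {y : EuclideanSpace ℝ (Fin n)} (hy : y ∉ closedBall 0 1) : pot y = 0 := by
  rw [mem_closedBall_zero_iff, not_le] at hy
  rw [pot, pp_eq_zero (by norm_num) (by nlinarith), zero_div]

theorem wgt_nonneg (y : EuclideanSpace ℝ (Fin n)) : 0 ≤ wgt y :=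
  mul_nonneg (by norm_num) (pp_nonneg _ _)

theorem pot_nonneg (y : EuclideanSpace ℝ (Fin n)) : 0 ≤ pot y :=
  div_nonneg (pp_nonneg _ _) two_pos.le

theorem integral_wgt_pos : 0 < ∫ y : EuclideanSpace ℝ (Fin n), wgt y := by
  refine Continuous.integral_pos_of_hasCompactSupport_nonneg_nonzero (x := 0)
    contDiff_wgt.continuous ?_ wgt_nonneg (by norm_num [wgt, pp])
  exact HasCompactSupport.intro (isCompact_closedBall 0 1) fun y hy => wgt_zero hy

theorem fderiv_pot (y e : EuclideanSpace ℝ (Fin n)) : fderiv ℝ pot y e = -(wgt y * ⟪y, e⟫) := by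
  have hd : HasDerivAt (pp 4) (((2 : ℕ) + 2 : ℝ) * pp 3 (1 - ‖y‖ ^ 2)) (1 - ‖y‖ ^ 2) :=
    hasDerivAt_pp 2 _
  have hin : HasFDerivAt (fun z : EuclideanSpace ℝ (Fin n) => 1 - ‖z‖ ^ 2) _ y :=
    (hasStrictFDerivAt_norm_sq y).hasFDerivAt.const_sub 1
  have h := (hd.comp_hasFDerivAt y hin).mul_const (2 : ℝ)⁻¹
  rw [show (pot (n := n)) = fun z => (pp 4 ∘ fun z : EuclideanSpace ℝ (Fin n) => 1 - ‖z‖ ^ 2) z *
    (2 : ℝ)⁻¹ from funext fun z => by simp [pot, div_eq_mul_inv], h.fderiv]
  simp [wgt]
  ring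

/-- Weighted mean value inequality for almost superharmonic functions. -/
theorem mean_le {w : EuclideanSpace ℝ (Fin n) → ℝ} {x : EuclideanSpace ℝ (Fin n)} {r R η : ℝ}
    (hr : 0 < r) (hrR : r < R) (hw : ∀ y ∈ closedBall x R, ContDiffAt ℝ 2 w y)
    (hlap : ∀ y ∈ closedBall x R, Δ w y ≤ η) :
    ∫ y, wgt y * w (x + r • y) ≤
      w x * (∫ y : EuclideanSpace ℝ (Fin n), wgt y) + η * (r ^ 2 / 2) *
        (∫ y : EuclideanSpace ℝ (Fin n), pot y) := by
  set b := EuclideanSpace.basisFun (Fin n) ℝ with hb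
  have hR : 0 < R := hr.trans hrR
  have hmem : ∀ t : ℝ, |t| ≤ R → ∀ y ∈ closedBall (0 : EuclideanSpace ℝ (Fin n)) 1,
      x + t • y ∈ closedBall x R := fun t ht y hy => by
    rw [mem_closedBall_zero_iff] at hy
    rw [mem_closedBall, dist_eq_norm, add_sub_cancel_left, norm_smul, Real.norm_eq_abs]
    exact (mul_le_of_le_one_right (abs_nonneg t) hy).trans ht
  set I : ℝ → ℝ := fun t => ∫ y, wgt y * w (x + t • y) with hI
  have hlin : ∀ (t : ℝ) (y : EuclideanSpace ℝ (Fin n)),
      HasFDerivAt (fun y => x + t • y) (t • ContinuousLinearMap.id ℝ _) y := fun t y =>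
    ((hasFDerivAt_id y).const_smul t).const_add x
  have hsplit : ∀ t : ℝ, |t| ≤ R →
      ∫ y, wgt y * fderiv ℝ w (x + t • y) y = t * ∫ y, pot y * Δ w (x + t • y) := by
    intro t ht
    have hgi : ∀ i, ∀ y ∈ closedBall (0 : EuclideanSpace ℝ (Fin n)) 1,
        ContDiffAt ℝ 1 (fun y => fderiv ℝ w (x + t • y) (b i)) y := fun i y hy =>
      ContDiffAt.comp (g := fun z => fderiv ℝ w z (b i)) y
        (contDiffAt_partial (hw _ (hmem t ht y hy)) _) (by fun_prop)
    have hi : ∀ i, ∫ y, pot y * (t * fderiv ℝ (fun z => fderiv ℝ w z (b i)) (x + t • y) (b i)) =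
        ∫ y, wgt y * (⟪y, b i⟫ * fderiv ℝ w (x + t • y) (b i)) := by
      intro i
      have h := ibp (isCompact_closedBall 0 1) (contDiff_pot.of_le (by norm_num))
        (fun y hy => pot_zero hy) (hgi i) (b i)
      simp only [fderiv_pot, neg_mul, integral_neg, neg_neg, mul_assoc] at h
      rw [← h]
      refine integral_congr_ae (Eventually.of_forall fun y => ?_)
      by_cases hy : y ∈ closedBall (0 : EuclideanSpace ℝ (Fin n)) 1
      · have hd : HasFDerivAt (fun y => fderiv ℝ w (x + t • y) (b i))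
            ((fderiv ℝ (fun z => fderiv ℝ w z (b i)) (x + t • y)).comp
              (t • ContinuousLinearMap.id ℝ _)) y :=
          HasFDerivAt.comp (g := fun z => fderiv ℝ w z (b i)) y
            (((contDiffAt_partial (hw _ (hmem t ht y hy)) _).differentiableAt
              one_ne_zero).hasFDerivAt) (hlin t y)
        simp [hd.fderiv]
      · simp [pot_zero hy]
    have hsum : ∀ i, Integrable (fun y => wgt y * (⟪y, b i⟫ * fderiv ℝ w (x + t • y) (b i))) :=
      fun i => integrable_supp (isCompact_closedBall 0 1) (fun y hy =>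
        contDiff_wgt.continuous.continuousAt.mul ((continuousAt_id.inner continuousAt_const).mul
          (hgi i y hy).continuousAt)) fun y hy => by simp [wgt_zero hy]
    have hsum' : ∀ i, Integrable (fun y =>
        pot y * (t * fderiv ℝ (fun z => fderiv ℝ w z (b i)) (x + t • y) (b i))) := fun i =>
      integrable_supp (isCompact_closedBall 0 1) (fun y hy =>
        contDiff_pot.continuous.continuousAt.mul (continuousAt_const.mul
          (ContinuousAt.comp (f := fun y => x + t • y)
            (((contDiffAt_partial (hw _ (hmem t ht y hy)) _).continuousAt_fderiv one_ne_zero).clm_apply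
              continuousAt_const) (by fun_prop)))) fun y hy => by simp [pot_zero hy]
    calc ∫ y, wgt y * fderiv ℝ w (x + t • y) y
        = ∫ y, ∑ i, wgt y * (⟪y, b i⟫ * fderiv ℝ w (x + t • y) (b i)) := by
          refine integral_congr_ae (Eventually.of_forall fun y => ?_)
          simp only
          rw [← Finset.mul_sum]
          congr 1
          conv_lhs => arg 2; rw [← b.sum_repr' y]
          simp [real_inner_comm y]
      _ = ∑ i, ∫ y, pot y * (t * fderiv ℝ (fun z => fderiv ℝ w z (b i)) (x + t • y) (b i)) := by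
          rw [integral_finsetSum _ fun i _ => hsum i]
          exact Finset.sum_congr rfl fun i _ => (hi i).symm
      _ = t * ∫ y, pot y * Δ w (x + t • y) := by
          rw [← integral_finsetSum _ fun i _ => hsum' i, ← integral_const_mul]
          refine integral_congr_ae (Eventually.of_forall fun y => ?_)
          by_cases hy : y ∈ closedBall (0 : EuclideanSpace ℝ (Fin n)) 1
          · simp only
            rw [laplacian_eq_sum (hw _ (hmem t ht y hy)), Finset.mul_sum, Finset.mul_sum]
            exact Finset.sum_congr rfl fun i _ => by ring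
          · simp [pot_zero hy]
  obtain ⟨M, hM⟩ := (isCompact_closedBall x R).bddAbove_image
    (fun y hy => ((hw y hy).continuousAt_fderiv (by norm_num)).norm.continuousWithinAt)
  have hder : ∀ t : ℝ, |t| < R → HasDerivAt I (∫ y, wgt y * fderiv ℝ w (x + t • y) y) t := by
    intro t ht
    have hs : {s : ℝ | |s| < R} ∈ 𝓝 t :=
      (isOpen_lt continuous_abs continuous_const).mem_nhds ht
    refine (hasDerivAt_integral_of_dominated_loc_of_deriv_le (bound := fun y => wgt y * max M 0)
      (F := fun s y => wgt y * w (x + s • y))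
      (F' := fun s y => wgt y * fderiv ℝ w (x + s • y) y) hs ?_ ?_ ?_ ?_ ?_ ?_).2
    · filter_upwards [hs] with s hs'
      exact (integrable_supp (isCompact_closedBall 0 1) (fun y hy =>
        contDiff_wgt.continuous.continuousAt.mul (ContinuousAt.comp (f := fun y => x + s • y)
          (hw _ (hmem s (le_of_lt hs') y hy)).continuousAt (by fun_prop)))
        fun y hy => by simp [wgt_zero hy]).aestronglyMeasurable
    · exact integrable_supp (isCompact_closedBall 0 1) (fun y hy =>
        contDiff_wgt.continuous.continuousAt.mul (ContinuousAt.comp (f := fun y => x + t • y)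
          (hw _ (hmem t ht.le y hy)).continuousAt (by fun_prop))) fun y hy => by simp [wgt_zero hy]
    · exact (integrable_supp (isCompact_closedBall 0 1) (fun y hy =>
        contDiff_wgt.continuous.continuousAt.mul ((ContinuousAt.comp (f := fun y => x + t • y)
          ((hw _ (hmem t ht.le y hy)).continuousAt_fderiv (by norm_num)) (by fun_prop)).clm_apply
            continuousAt_id)) fun y hy => by simp [wgt_zero hy]).aestronglyMeasurable
    · refine Eventually.of_forall fun y s hs' => ?_
      by_cases hy : y ∈ closedBall (0 : EuclideanSpace ℝ (Fin n)) 1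
      · rw [norm_mul, Real.norm_eq_abs, abs_of_nonneg (wgt_nonneg y)]
        refine mul_le_mul_of_nonneg_left ?_ (wgt_nonneg y)
        refine (ContinuousLinearMap.le_opNorm _ _).trans ?_
        have h1 := hM (mem_image_of_mem _ (hmem s (le_of_lt hs') y hy))
        rw [mem_closedBall_zero_iff] at hy
        calc ‖fderiv ℝ w (x + s • y)‖ * ‖y‖ ≤ ‖fderiv ℝ w (x + s • y)‖ * 1 :=
              mul_le_mul_of_nonneg_left hy (norm_nonneg _)
          _ ≤ max M 0 := by rw [mul_one]; exact le_max_of_le_left h1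
      · simp [wgt_zero hy]
    · exact (integrable_supp (isCompact_closedBall 0 1)
        (fun y _ => contDiff_wgt.continuous.continuousAt)
        fun y hy => wgt_zero hy).mul_const _
    · refine Eventually.of_forall fun y s hs' => ?_
      by_cases hy : y ∈ closedBall (0 : EuclideanSpace ℝ (Fin n)) 1
      · exact (((hw _ (hmem s (le_of_lt hs') y hy)).differentiableAt
          (by norm_num)).hasFDerivAt.comp_hasDerivAt s
          (by simpa using ((hasDerivAt_id s).smul_const y).const_add x)).const_mul _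
      · simpa [wgt_zero hy] using hasDerivAt_const s (0 : ℝ)
  set P := ∫ y : EuclideanSpace ℝ (Fin n), pot y
  set J : ℝ → ℝ := fun t => I t - η * (t ^ 2 / 2) * P with hJ
  have habs : ∀ t ∈ Icc (0 : ℝ) r, |t| < R := fun t ht => by
    rw [abs_of_nonneg ht.1]; exact ht.2.trans_lt hrR
  have hJd : ∀ t ∈ Icc (0 : ℝ) r,
      HasDerivAt J (t * (∫ y, pot y * Δ w (x + t • y)) - η * t * P) t := fun t ht => by
    refine (((hder t (habs t ht)).congr_deriv (hsplit t (habs t ht).le)).sub
      ((((hasDerivAt_pow 2 t).div_const 2).const_mul η).mul_const P)).congr_deriv ?_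
    ring
  have hanti : AntitoneOn J (Icc 0 r) := by
    refine antitoneOn_of_deriv_nonpos (convex_Icc 0 r)
      (fun t ht => (hJd t ht).continuousAt.continuousWithinAt)
      (fun t ht => (hJd t (interior_subset ht)).differentiableAt.differentiableWithinAt)
      fun t ht => ?_
    rw [interior_Icc] at ht
    rw [(hJd t (Ioo_subset_Icc_self ht)).deriv]
    have : ∫ y, pot y * Δ w (x + t • y) ≤ η * P := by
      rw [← integral_const_mul]
      refine integral_mono (integrable_supp (isCompact_closedBall 0 1) (fun y hy =>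
        contDiff_pot.continuous.continuousAt.mul (ContinuousAt.comp (f := fun y => x + t • y)
          (continuousAt_laplacian (hw _ (hmem t (habs t (Ioo_subset_Icc_self ht)).le y hy)))
          (by fun_prop))) fun y hy => by simp [pot_zero hy])
        ((integrable_supp (isCompact_closedBall 0 1)
          (fun y _ => contDiff_pot.continuous.continuousAt) fun y hy => pot_zero hy).const_mul η)
        fun y => ?_
      by_cases hy : y ∈ closedBall (0 : EuclideanSpace ℝ (Fin n)) 1
      · rw [mul_comm η]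
        exact mul_le_mul_of_nonneg_left
          (hlap _ (hmem t (habs t (Ioo_subset_Icc_self ht)).le y hy)) (pot_nonneg y)
      · simp [pot_zero hy]
    nlinarith [mul_le_mul_of_nonneg_left this ht.1.le]
  have h := hanti ⟨le_rfl, hr.le⟩ ⟨hr.le, le_rfl⟩ hr.le
  have h0 : I 0 = w x * ∫ y : EuclideanSpace ℝ (Fin n), wgt y := by
    simp only [hI, zero_smul, add_zero]
    rw [integral_mul_const, mul_comm]
  simp only [hJ, h0] at h
  norm_num at h
  linarith

end

end Vale.Agent.P100.Linear
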