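import Vale.Agent.P100.Linear.Calculus

/-!
For `p = 1` the function `Φ = |x| ^ (A + 2) v + 2 (A + 2) (x · ∇u + γ u)`, `γ = (n - 4 - A) / 2`,
satisfies `-Δ (|x| ^ (-A - 2) u) = |x| ^ (-4 - A) Φ` and `-Δ Φ = |x| ^ (A + B + 2) u ^ q` (the latter
in a limiting sense, as `u` is only twice differentiable). It is positive.
-/

open Set Filter Metric Laplacian InnerProductSpace Real MeasureTheory Function
open scoped Topology RealInnerProductSpace

namespace Vale.Agent.P100.Linear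

open Sphere

noncomputable section

variable {n : ℕ} {A B q : ℝ} {u v : EuclideanSpace ℝ (Fin n) → ℝ}

/-- Half the homogeneity of the iterated kernel. -/
def gam (n : ℕ) (A : ℝ) : ℝ := ((n : ℝ) - 4 - A) / 2

/-- The second unknown of the transformed system. -/
def Phi (A : ℝ) (u v : EuclideanSpace ℝ (Fin n) → ℝ) (x : EuclideanSpace ℝ (Fin n)) : ℝ :=
  ‖x‖ ^ (A + 2) * v x + 2 * (A + 2) * rayD (gam n A) u x

/-- The data of a positive solution with `p = 1` in the range treated by moving spheres. -/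
structure Sol (n : ℕ) (A B q : ℝ) (u v : EuclideanSpace ℝ (Fin n) → ℝ) : Prop where
  hn : 3 ≤ n
  hA : -2 < A
  hB : -2 < B
  hq : 1 < q
  hg : 0 < gam n A
  sub : gam n A * (q - 1) < 4 + A + B
  cu : Continuous u
  cv : Continuous v
  u2 : ∀ x, x ≠ 0 → ContDiffAt ℝ 2 u x
  v2 : ∀ x, x ≠ 0 → ContDiffAt ℝ 2 v x
  up : ∀ x, 0 < u x
  vp : ∀ x, 0 < v x
  eu : ∀ x, x ≠ 0 → Δ u x = -(‖x‖ ^ A * v x)
  ev : ∀ x, x ≠ 0 → Δ v x = -(‖x‖ ^ B * u x ^ q)

/-- The Laplacian of a dilated function. -/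
theorem laplacian_dil {h : ℝ} {f : EuclideanSpace ℝ (Fin n) → ℝ} {x : EuclideanSpace ℝ (Fin n)}
    (hf : ContDiffAt ℝ 2 f (h • x)) :
    ContDiffAt ℝ 2 (fun y => f (h • y)) x ∧ Δ (fun y => f (h • y)) x = h ^ 2 * Δ f (h • x) := by
  have hc : ContDiffAt ℝ 2 (fun y => f (h • y)) x :=
    ContDiffAt.comp (g := f) x hf (contDiffAt_id.const_smul h)
  refine ⟨hc, ?_⟩
  rw [laplacian_eq_iteratedFDeriv_orthonormalBasis _ (EuclideanSpace.basisFun (Fin n) ℝ),
    laplacian_eq_iteratedFDeriv_orthonormalBasis f (EuclideanSpace.basisFun (Fin n) ℝ),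
    Finset.mul_sum]
  refine Finset.sum_congr rfl fun i _ => ?_
  set e := EuclideanSpace.basisFun (Fin n) ℝ i
  obtain ⟨r', hr, hr'⟩ := line_deriv (e := e) hc
  obtain ⟨q', hq, hq'⟩ := line_deriv (e := e) hf
  have hl : ∀ t : ℝ, HasDerivAt (fun t => h * t) h t := fun t => by
    simpa using (hasDerivAt_id t).const_mul h
  have hev : ∀ᶠ t in 𝓝 (0 : ℝ), HasDerivAt (fun t => f (h • x + t • e)) (q' (h * t)) (h * t) := by
    have : Tendsto (fun t : ℝ => h * t) (𝓝 0) (𝓝 0) := by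
      simpa using (continuous_const_mul h).tendsto 0
    exact this.eventually hq
  have heq : r' =ᶠ[𝓝 0] fun t => q' (h * t) * h := by
    filter_upwards [hev, hr] with t ht ht'
    refine ht'.unique ((ht.comp t (hl t)).congr_of_eventuallyEq (Eventually.of_forall fun s => ?_))
    simp [smul_add, smul_smul]
  have hQ : HasDerivAt (fun t => q' (h * t) * h)
      (iteratedFDeriv ℝ 2 f (h • x) ![e, e] * h * h) 0 :=
    (HasDerivAt.comp (h₂ := q') 0 (by simpa using hq') (hl 0)).mul_const h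
  rw [(hr'.congr_of_eventuallyEq heq.symm).unique hQ]
  ring

theorem continuousAt_Phi (H : Sol n A B q u v) {x : EuclideanSpace ℝ (Fin n)} (hx : x ≠ 0) :
    ContinuousAt (Phi A u v) x :=
  ((continuous_norm.continuousAt.rpow_const (Or.inr (by linarith [H.hA]))).mul
    H.cv.continuousAt).add ((continuousAt_rayD _ H.u2 hx).const_mul _)

/-- `Φ` is a uniform limit of functions with the expected Laplacian. -/
theorem approx (H : Sol n A B q u v) {K : Set (EuclideanSpace ℝ (Fin n))} (hK : IsCompact K)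
    (h0 : ∀ x ∈ K, x ≠ 0) {η : ℝ} (hη : 0 < η) :
    ∃ w : EuclideanSpace ℝ (Fin n) → ℝ, (∀ x, x ≠ 0 → ContDiffAt ℝ 2 w x) ∧
      ∀ x ∈ K, |w x - Phi A u v x| ≤ η ∧
        Δ w x ≤ -(‖x‖ ^ (A + 2 + B) * u x ^ q) + η := by
  set c := A + 2 with hc
  have hc0 : 0 < c := by linarith [H.hA]
  set g := gam n A with hg
  set b := g + c with hb
  have hne : ∀ {s : ℝ} {x : EuclideanSpace ℝ (Fin n)}, 0 < s → x ≠ 0 → s • x ≠ 0 :=
    fun hs hx => smul_ne_zero hs.ne' hx
  have unif : ∀ (a : ℝ) (f : EuclideanSpace ℝ (Fin n) → ℝ),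
      (∀ x, x ≠ 0 → ContDiffAt ℝ 2 f x) → ∀ ε : ℝ, 0 < ε → ∃ δ : ℝ, 0 < δ ∧
        ∀ s : ℝ, |s - 1| < δ → ∀ x ∈ K,
          |s ^ (a - 1) * rayD a f (s • x) - rayD a f x| < ε := by
    intro a f hf ε hε
    have hev : ∀ x ∈ K, ∀ᶠ z : ℝ × EuclideanSpace ℝ (Fin n) in 𝓝 (1, x),
        |z.1 ^ (a - 1) * rayD a f (z.1 • z.2) - rayD a f z.2| < ε := by
      intro x hx
      have h1 : ContinuousAt (fun z : ℝ × EuclideanSpace ℝ (Fin n) =>
          |z.1 ^ (a - 1) * rayD a f (z.1 • z.2) - rayD a f z.2|) (1, x) := by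
        refine (ContinuousAt.sub ?_ ?_).abs
        · refine (continuousAt_fst.rpow_const (Or.inl one_ne_zero)).mul ?_
          exact ContinuousAt.comp (f := fun z : ℝ × EuclideanSpace ℝ (Fin n) => z.1 • z.2)
            (continuousAt_rayD a hf (by simpa using h0 x hx)) (by fun_prop)
        · exact ContinuousAt.comp (f := fun z : ℝ × EuclideanSpace ℝ (Fin n) => z.2)
            (continuousAt_rayD a hf (h0 x hx)) (by fun_prop)
      exact h1.eventually (eventually_lt_nhds (by simpa using hε))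
    obtain ⟨δ, hδ, hball⟩ := Metric.eventually_nhds_iff.1
      (hK.eventually_forall_of_forall_eventually
        (P := fun s x => |s ^ (a - 1) * rayD a f (s • x) - rayD a f x| < ε) hev)
    exact ⟨δ, hδ, fun s hs => hball (by simpa [Real.dist_eq] using hs)⟩
  have slope : ∀ (a : ℝ) (f : EuclideanSpace ℝ (Fin n) → ℝ),
      (∀ x, x ≠ 0 → ContDiffAt ℝ 2 f x) → ∀ h : ℝ, 1 < h → ∀ x, x ≠ 0 →
        ∃ s ∈ Ioo 1 h, (h ^ a * f (h • x) - f x) / (h - 1) = s ^ (a - 1) * rayD a f (s • x) := by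
    intro a f hf h hh x hx
    have hd : ∀ s ∈ Icc (1 : ℝ) h, HasDerivAt (fun s : ℝ => s ^ a * f (s • x))
        (s ^ (a - 1) * rayD a f (s • x)) s := fun s hs =>
      hasDerivAt_ray a (one_pos.trans_le hs.1)
        ((hf _ (hne (one_pos.trans_le hs.1) hx)).differentiableAt (by norm_num))
    obtain ⟨s, hs, he⟩ := exists_hasDerivAt_eq_slope _ _ hh
      (fun s hs => (hd s hs).continuousAt.continuousWithinAt)
      (fun s hs => hd s (Ioo_subset_Icc_self hs))
    exact ⟨s, hs, by simpa using he.symm⟩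
  obtain ⟨M, hM⟩ := hK.bddAbove_image (f := fun x => 2 * c * ‖x‖ ^ A) fun x hx =>
    ((continuous_norm.continuousAt.rpow_const
      (Or.inl (norm_ne_zero_iff.2 (h0 x hx)))).const_mul _).continuousWithinAt
  obtain ⟨δ₁, hδ₁, hu1⟩ := unif g u H.u2 (η / (2 * c)) (by positivity)
  obtain ⟨δ₂, hδ₂, hv1⟩ := unif b v H.v2 (η / (max M 0 + 1)) (by positivity)
  set h := 1 + min δ₁ δ₂ / 2 with hh
  have hh1 : 1 < h := lt_add_of_pos_right 1 (by positivity)
  have hhp : 0 < h := one_pos.trans hh1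
  have hclose : ∀ s ∈ Ioo 1 h, |s - 1| < δ₁ ∧ |s - 1| < δ₂ := fun s hs => by
    rw [abs_of_pos (sub_pos.2 hs.1)]
    have h2 : s - 1 < min δ₁ δ₂ / 2 := by linarith [hs.2]
    constructor <;> linarith [min_le_left δ₁ δ₂, min_le_right δ₁ δ₂, lt_min hδ₁ hδ₂]
  set φ : ℝ → ℝ := fun s => s ^ (c / 2) with hφ
  set k := 2 * c / (h - 1) with hk
  refine ⟨fun x => φ (‖x‖ ^ 2) * v x + ((k * h ^ g) * u (h • x) - k * u x), ?_, ?_⟩
  · intro x hx
    have hn2 : ContDiffAt ℝ 2 (fun z : EuclideanSpace ℝ (Fin n) => ‖z‖ ^ 2) x :=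
      (contDiff_norm_sq ℝ).contDiffAt
    exact ((ContDiffAt.comp (g := φ) x
      (Real.contDiffAt_rpow_const_of_ne (pow_ne_zero _ (norm_ne_zero_iff.2 hx))) hn2).mul
        (H.v2 x hx)).add ((contDiffAt_const.mul (laplacian_dil (H.u2 _ (hne hhp hx))).1).sub
          (contDiffAt_const.mul (H.u2 x hx)))
  intro x hxK
  have hx := h0 x hxK
  have hr : 0 < ‖x‖ := norm_pos_iff.2 hx
  have hS : 0 < ‖x‖ ^ 2 := by positivity
  have hφe : φ (‖x‖ ^ 2) = ‖x‖ ^ c := by
    simp only [hφ]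
    rw [← rpow_natCast ‖x‖ 2, ← rpow_mul hr.le]
    congr 1; push_cast; ring
  constructor
  · obtain ⟨s, hs, he⟩ := slope g u H.u2 h hh1 x hx
    have h1 := hu1 s (hclose s hs).1 x hxK
    simp only [Phi, ← hc, ← hg]
    rw [hφe]
    rw [show ‖x‖ ^ c * v x + ((k * h ^ g) * u (h • x) - k * u x) -
        (‖x‖ ^ c * v x + 2 * c * rayD g u x) =
      2 * c * ((h ^ g * u (h • x) - u x) / (h - 1) - rayD g u x) by rw [hk]; ring, he, abs_mul,
      abs_of_pos (by positivity : (0 : ℝ) < 2 * c)]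
    refine (mul_le_mul_of_nonneg_left h1.le (by positivity)).trans (le_of_eq ?_)
    field_simp
  · obtain ⟨s, hs, he⟩ := slope b v H.v2 h hh1 x hx
    have h1 := hv1 s (hclose s hs).2 x hxK
    obtain ⟨hpc, hpl⟩ := laplacian_radial_mul (φ := φ)
      (d1 := fun s => c / 2 * s ^ (c / 2 - 1)) (d2 := c / 2 * (c / 2 - 1) * (‖x‖ ^ 2) ^ (c / 2 - 2))
      (Real.contDiffAt_rpow_const_of_ne hS.ne')
      (eventually_of_mem (Ioi_mem_nhds hS) fun s (hs : 0 < s) =>
        Real.hasDerivAt_rpow_const (Or.inl hs.ne'))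
      (((Real.hasDerivAt_rpow_const (Or.inl hS.ne')).const_mul (c / 2)).congr_deriv (by
        rw [show c / 2 - 1 - 1 = c / 2 - 2 by ring]; ring)) (H.v2 x hx)
    obtain ⟨hdc, hdl⟩ := laplacian_dil (h := h) (H.u2 _ (hne hhp hx))
    have hka : ContDiffAt ℝ 2 (fun y => k * h ^ g * u (h • y)) x := contDiffAt_const.mul hdc
    have hkb : ContDiffAt ℝ 2 (fun y => k * u y) x := contDiffAt_const.mul (H.u2 x hx)
    have hab : ContDiffAt ℝ 2
        ((fun y => k * h ^ g * u (h • y)) - fun y => k * u y) x := hka.sub hkb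
    rw [show (fun y => φ (‖y‖ ^ 2) * v y + ((k * h ^ g) * u (h • y) - k * u y)) =
        (fun y => φ (‖y‖ ^ 2) * v y) +
          ((fun y => k * h ^ g * u (h • y)) - fun y => k * u y) from rfl,
      hpc.laplacian_add hab,
      hka.laplacian_sub hkb,
      show (fun y => k * h ^ g * u (h • y)) = (k * h ^ g) • fun y => u (h • y) from rfl,
      laplacian_smul _ hdc, show (fun y => k * u y) = k • u from rfl,
      laplacian_smul _ (H.u2 x hx), hpl, hφe, hdl, H.eu x hx, H.eu _ (hne hhp hx), H.ev x hx]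
    have e1 : (‖x‖ ^ 2) ^ (c / 2 - 1) = ‖x‖ ^ A := by
      rw [← rpow_natCast ‖x‖ 2, ← rpow_mul hr.le]
      congr 1; rw [hc]; push_cast; ring
    have e2 : (‖x‖ ^ 2) ^ (c / 2 - 2) * ‖x‖ ^ 2 = ‖x‖ ^ A := by
      rw [show c / 2 - 2 = c / 2 - 1 - 1 by ring, rpow_sub_one hS.ne', e1]
      field_simp
    have e3 : ‖x‖ ^ c * ‖x‖ ^ B = ‖x‖ ^ (A + 2 + B) := by rw [← rpow_add hr, hc]
    have e4 : h ^ g * h ^ 2 * h ^ A = h ^ b := by
      rw [← rpow_natCast h 2, ← rpow_add hhp, ← rpow_add hhp, hb, hc]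
      congr 1; push_cast; ring
    have e5 : ‖h • x‖ ^ A = h ^ A * ‖x‖ ^ A := by
      rw [norm_smul, Real.norm_eq_abs, abs_of_pos hhp, mul_rpow hhp.le hr.le]
    have hbn : c * (c + (n : ℝ) - 2) = 2 * c * b := by rw [hb, hg, gam, hc]; ring
    have hrd : rayD b v x = b * v x + fderiv ℝ v x x := rfl
    have key : 2 * c * ‖x‖ ^ A * (rayD b v x - (h ^ b * v (h • x) - v x) / (h - 1)) ≤ η := by
      rw [he]
      have hM0 : 2 * c * ‖x‖ ^ A ≤ max M 0 := le_max_of_le_left (hM (mem_image_of_mem _ hxK))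
      refine (mul_le_mul_of_nonneg_left
        ((le_abs_self _).trans ((abs_sub_comm _ _).trans_le h1.le)) (by positivity)).trans ?_
      rw [← mul_div_assoc, div_le_iff₀ (by positivity)]
      nlinarith
    simp only [smul_eq_mul, e1, e5]
    have e6 : (4 * (c / 2 * (c / 2 - 1) * (‖x‖ ^ 2) ^ (c / 2 - 2)) * ‖x‖ ^ 2 +
        2 * n * (c / 2 * ‖x‖ ^ A)) = 2 * c * b * ‖x‖ ^ A := by
      rw [← hbn, show 4 * (c / 2 * (c / 2 - 1) * (‖x‖ ^ 2) ^ (c / 2 - 2)) * ‖x‖ ^ 2 =
        4 * (c / 2 * (c / 2 - 1)) * ((‖x‖ ^ 2) ^ (c / 2 - 2) * ‖x‖ ^ 2) by ring, e2]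
      ring
    rw [e6]
    have e7 : k * h ^ g * (h ^ 2 * -(h ^ A * ‖x‖ ^ A * v (h • x))) =
        -(k * ‖x‖ ^ A * (h ^ b * v (h • x))) := by rw [← e4]; ring
    have e8 : ‖x‖ ^ c * -(‖x‖ ^ B * u x ^ q) = -(‖x‖ ^ (A + 2 + B) * u x ^ q) := by
      rw [← e3]; ring
    rw [e7, e8]
    rw [hk]
    rw [hrd] at key
    refine le_trans (le_of_eq ?_) (by linarith [key] :
      2 * c * ‖x‖ ^ A * (b * v x + fderiv ℝ v x x - (h ^ b * v (h • x) - v x) / (h - 1)) -
        ‖x‖ ^ (A + 2 + B) * u x ^ q ≤ -(‖x‖ ^ (A + 2 + B) * u x ^ q) + η)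
    ring

/-- Comparison on an annulus for uniform limits. -/
theorem annulus_lim {w : EuclideanSpace ℝ (Fin n) → ℝ} {φ d1 d2 : ℝ → ℝ} {ε ρ : ℝ} (hn : 0 < n)
    (hε : 0 < ε) (h1 : ∀ s, 0 < s → HasDerivAt φ (d1 s) s)
    (h2 : ∀ s, 0 < s → HasDerivAt d1 (d2 s) s)
    (happ : ∀ η : ℝ, 0 < η → ∃ w' : EuclideanSpace ℝ (Fin n) → ℝ,
      (∀ x, ε ≤ ‖x‖ → ‖x‖ ≤ ρ → ContDiffAt ℝ 2 w' x ∧ |w' x - w x| ≤ η) ∧
      ∀ x, ε < ‖x‖ → ‖x‖ < ρ →
        Δ w' x ≤ 4 * d2 (‖x‖ ^ 2) * ‖x‖ ^ 2 + 2 * n * d1 (‖x‖ ^ 2) + η)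
    (hin : ∀ x, ‖x‖ = ε → φ (ε ^ 2) ≤ w x) (hout : ∀ x, ‖x‖ = ρ → φ (ρ ^ 2) ≤ w x)
    {x : EuclideanSpace ℝ (Fin n)} (hx : ε ≤ ‖x‖) (hx' : ‖x‖ ≤ ρ) : φ (‖x‖ ^ 2) ≤ w x := by
  refine le_of_forall_pos_le_add fun τ hτ => ?_
  set δ := τ / (ρ ^ 2 + 3) with hδ
  have hδ0 : 0 < δ := by positivity
  obtain ⟨w', hw', hl⟩ := happ δ hδ0
  have hnn : (1 : ℝ) ≤ n := by exact_mod_cast hn
  have h := annulus_ge (φ := fun s => φ s + (δ * (s - ρ ^ 2) - δ)) (d1 := fun s => d1 s + δ)
    (d2 := d2) (w := w') hε (fun y a b => (hw' y a b).1)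
    (fun s hs => ((h1 s hs).add (((((hasDerivAt_id s).sub_const (ρ ^ 2)).const_mul δ)).sub_const
      δ)).congr_deriv (by ring))
    (fun s hs => (h2 s hs).add_const δ) (fun y a b => ?_) (fun y hy => ?_) (fun y hy => ?_) hx hx'
  · have := (abs_le.1 (hw' x hx hx').2).2
    have e : δ * (ρ ^ 2 + 3) = τ := by rw [hδ]; field_simp
    nlinarith [sq_nonneg ‖x‖]
  · refine (hl y a b).trans_lt ?_
    nlinarith
  · have := hin y hy
    have := (abs_le.1 (hw' y hy.ge (hy.le.trans (hx.trans hx'))).2).1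
    have hρ : ε ^ 2 ≤ ρ ^ 2 := pow_le_pow_left₀ hε.le (hx.trans hx') 2
    nlinarith
  · have := hout y hy
    have := (abs_le.1 (hw' y (hy.symm ▸ hx.trans hx') hy.le).2).1
    nlinarith

/-- A nonnegative limit of strictly superharmonic functions is positive. -/
theorem strict_pos {w : EuclideanSpace ℝ (Fin n) → ℝ} (hn : 0 < n) {ε ρ m : ℝ} (hε : 0 < ε)
    (hm : 0 < m)
    (happ : ∀ η : ℝ, 0 < η → ∃ w' : EuclideanSpace ℝ (Fin n) → ℝ,
      (∀ x, ε ≤ ‖x‖ → ‖x‖ ≤ ρ → ContDiffAt ℝ 2 w' x ∧ |w' x - w x| ≤ η) ∧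
      ∀ x, ε < ‖x‖ → ‖x‖ < ρ → Δ w' x ≤ -m + η)
    (h0 : ∀ x, ε ≤ ‖x‖ → ‖x‖ ≤ ρ → 0 ≤ w x)
    {x : EuclideanSpace ℝ (Fin n)} (hx : ε < ‖x‖) (hx' : ‖x‖ < ρ) : 0 < w x := by
  have hρ : 0 < ρ := (hε.trans hx).trans hx'
  set κ := m / ((4 * n + 8) * ρ ^ 2) with hκ
  have hκ0 : 0 < κ := by positivity
  have h := annulus_lim (w := w) (φ := fun s => κ * ((ρ ^ 2 - s) * (s - ε ^ 2)))
    (d1 := fun s => κ * (ρ ^ 2 + ε ^ 2 - 2 * s)) (d2 := fun _ => -2 * κ) hn hε
    (fun s _ => ((((hasDerivAt_id s).const_sub (ρ ^ 2)).mul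
      ((hasDerivAt_id s).sub_const (ε ^ 2))).const_mul κ).congr_deriv (by simp only [id_eq]; ring))
    (fun s _ => ((((hasDerivAt_id s).const_mul 2).const_sub (ρ ^ 2 + ε ^ 2)).const_mul κ).congr_deriv
      (by ring))
    (fun η hη => ?_) (fun y hy => ?_) (fun y hy => ?_) hx.le hx'.le
  · refine lt_of_lt_of_le ?_ h
    have a1 : 0 < ρ ^ 2 - ‖x‖ ^ 2 := by nlinarith [norm_nonneg x]
    have a2 : 0 < ‖x‖ ^ 2 - ε ^ 2 := by nlinarith [norm_nonneg x]
    positivity
  · obtain ⟨w', hw', hl⟩ := happ η hη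
    refine ⟨w', hw', fun y a b => (hl y a b).trans ?_⟩
    have e : κ * ((4 * n + 8) * ρ ^ 2) = m := by rw [hκ]; field_simp
    have h1 : ‖y‖ ^ 2 ≤ ρ ^ 2 := pow_le_pow_left₀ (norm_nonneg y) b.le 2
    nlinarith [mul_nonneg hκ0.le (show (0 : ℝ) ≤ n by positivity),
      mul_nonneg (mul_nonneg hκ0.le (show (0 : ℝ) ≤ n by positivity))
        (show 0 ≤ ρ ^ 2 + ε ^ 2 - ‖y‖ ^ 2 by nlinarith), mul_nonneg hκ0.le (sub_nonneg.2 h1)]
  · simpa using h0 y hy.ge (hy.le.trans (hx.trans hx').le)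
  · simpa using h0 y (hy.symm ▸ (hx.trans hx').le) hy.le

/-- The mean value bound for `Φ`; the gradient is moved to the weight. -/
theorem phi_mean (H : Sol n A B q u v) : ∃ K₀ : ℝ, 0 ≤ K₀ ∧
    ∀ (x : EuclideanSpace ℝ (Fin n)) (m : ℝ), x ≠ 0 →
      2 * (A + 2) * (gam n A * (∫ y, wgt y * u (x + (‖x‖ / 2) • y)) -
        K₀ * ∫ y in closedBall (0 : EuclideanSpace ℝ (Fin n)) 1,
          |u (x + (‖x‖ / 2) • y) - m|) ≤
      Phi A u v x * ∫ y : EuclideanSpace ℝ (Fin n), wgt y := by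
  obtain ⟨M₁, hM₁⟩ := (isCompact_closedBall (0 : EuclideanSpace ℝ (Fin n)) 1).bddAbove_image
    (f := fun y => ‖fderiv ℝ (wgt (n := n)) y‖)
    (contDiff_wgt.continuous_fderiv (by norm_num)).norm.continuousOn
  obtain ⟨M₂, hM₂⟩ := (isCompact_closedBall (0 : EuclideanSpace ℝ (Fin n)) 1).bddAbove_image
    (f := fun y : EuclideanSpace ℝ (Fin n) => wgt y) contDiff_wgt.continuous.continuousOn
  set K₀ := 3 * max M₁ 0 + n * max M₂ 0 with hK₀
  refine ⟨K₀, by positivity, fun x m hx => ?_⟩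
  set r := ‖x‖ / 2 with hrd
  have hr : 0 < r := half_pos (norm_pos_iff.2 hx)
  set Z : EuclideanSpace ℝ (Fin n) → EuclideanSpace ℝ (Fin n) := fun y => x + r • y with hZd
  set cb : Set (EuclideanSpace ℝ (Fin n)) := closedBall 0 1
  have hcb : IsCompact cb := isCompact_closedBall 0 1
  have hZ : ∀ y ∈ cb, Z y ≠ 0 ∧ Z y ∈ closedBall x (3 / 2 * r) ∧ ‖Z y‖ ≤ 3 * r := fun y hy => by
    rw [mem_closedBall_zero_iff] at hy
    have h1 : ‖r • y‖ ≤ r := by
      rw [norm_smul, Real.norm_eq_abs, abs_of_pos hr]; exact mul_le_of_le_one_right hr.le hy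
    refine ⟨fun h => ?_, ?_, ?_⟩
    · have : ‖x‖ = ‖r • y‖ := by rw [eq_neg_of_add_eq_zero_left h, norm_neg]
      rw [hrd] at h1
      linarith [norm_pos_iff.2 hx]
    · rw [mem_closedBall, dist_eq_norm, add_sub_cancel_left]; linarith
    · refine (norm_add_le _ _).trans ?_
      rw [show ‖x‖ = 2 * r by rw [hrd]; ring]
      linarith
  have hKx : ∀ y ∈ closedBall x (3 / 2 * r), y ≠ 0 := fun y hy h => by
    rw [h, mem_closedBall, dist_zero_left, hrd] at hy
    linarith [norm_pos_iff.2 hx]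
  have hZc : Continuous Z := by fun_prop
  -- integrable pieces
  have hiP : Integrable (fun y => wgt y * Phi A u v (Z y)) :=
    integrable_supp hcb (fun y hy => contDiff_wgt.continuous.continuousAt.mul
      (ContinuousAt.comp (f := Z) (continuousAt_Phi H (hZ y hy).1) hZc.continuousAt))
      fun y hy => by simp [wgt_zero hy]
  set κ := ∫ y : EuclideanSpace ℝ (Fin n), wgt y
  have hκ : Integrable (wgt (n := n)) :=
    integrable_supp hcb (fun y _ => contDiff_wgt.continuous.continuousAt) fun y hy => wgt_zero hy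
  have hmean : ∫ y, wgt y * Phi A u v (Z y) ≤ Phi A u v x * κ := by
    refine le_of_forall_pos_le_add fun τ hτ => ?_
    set P := ∫ y : EuclideanSpace ℝ (Fin n), pot y
    have hκ0 : 0 < κ := integral_wgt_pos
    have hP : 0 ≤ P := integral_nonneg pot_nonneg
    set η := τ / (2 * κ + r ^ 2 / 2 * P + 1) with hη
    have hη0 : 0 < η := by positivity
    obtain ⟨w, hw, hwK⟩ := approx H (isCompact_closedBall x (3 / 2 * r)) hKx hη0
    have h1 := mean_le hr (show r < 3 / 2 * r by linarith) (fun y hy => hw y (hKx y hy))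
      (η := η) (fun y hy => (hwK y hy).2.trans (by
        have : 0 ≤ ‖y‖ ^ (A + 2 + B) * u y ^ q :=
          mul_nonneg (rpow_nonneg (norm_nonneg _) _) (rpow_nonneg (H.up y).le _)
        linarith))
    have hiw : Integrable (fun y => wgt y * w (x + r • y)) :=
      integrable_supp hcb (fun y hy =>
        contDiff_wgt.continuous.continuousAt.mul (ContinuousAt.comp (f := Z)
          (hw _ (hZ y hy).1).continuousAt hZc.continuousAt)) fun y hy => by simp [wgt_zero hy]
    have h2 : ∫ y, wgt y * Phi A u v (Z y) ≤ (∫ y, wgt y * w (x + r • y)) + η * κ := by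
      rw [← integral_const_mul, ← integral_add hiw (hκ.const_mul η)]
      refine integral_mono hiP (hiw.add (hκ.const_mul η)) fun y => ?_
      by_cases hy : y ∈ cb
      · have := (abs_le.1 (hwK _ (hZ y hy).2.1).1).1
        have h0 := wgt_nonneg y
        simp only [hZd] at this ⊢
        nlinarith
      · simp [wgt_zero hy]
    have h3 : w x ≤ Phi A u v x + η := by
      linarith [(abs_le.1 (hwK x (mem_closedBall_self (by positivity))).1).2]
    have e : η * (2 * κ + r ^ 2 / 2 * P + 1) = τ := by rw [hη]; field_simp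
    nlinarith [mul_le_mul_of_nonneg_right h3 hκ0.le]
  refine le_trans ?_ hmean
  set b := EuclideanSpace.basisFun (Fin n) ℝ with hb
  have hd : ∀ y ∈ cb, DifferentiableAt ℝ u (Z y) := fun y hy =>
    (H.u2 _ (hZ y hy).1).differentiableAt (by norm_num)
  have hDc : ∀ y ∈ cb, ContinuousAt (fun y => fderiv ℝ u (Z y)) y := fun y hy =>
    ContinuousAt.comp (f := Z) ((H.u2 _ (hZ y hy).1).continuousAt_fderiv (by norm_num))
      hZc.continuousAt
  have hiD : Integrable (fun y => wgt y * fderiv ℝ u (Z y) (Z y)) :=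
    integrable_supp hcb (fun y hy => contDiff_wgt.continuous.continuousAt.mul
      ((hDc y hy).clm_apply hZc.continuousAt)) fun y hy => by simp [wgt_zero hy]
  have hiu : Integrable (fun y => wgt y * u (Z y)) :=
    integrable_supp hcb (fun y _ =>
      (contDiff_wgt.continuous.mul (H.cu.comp hZc)).continuousAt) fun y hy => by simp [wgt_zero hy]
  have hiI : IntegrableOn (fun y => |u (Z y) - m|) cb :=
    ((H.cu.comp hZc).sub continuous_const).abs.continuousOn.integrableOn_compact hcb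
  have hgrad : -(K₀ * ∫ y in cb, |u (Z y) - m|) ≤ ∫ y, wgt y * fderiv ℝ u (Z y) (Z y) := by
    set F : Fin n → EuclideanSpace ℝ (Fin n) → ℝ := fun i y => wgt y * ⟪Z y, b i⟫ with hF
    have hF1 : ∀ i, ContDiff ℝ 1 (F i) := fun i =>
      (contDiff_wgt.of_le (by norm_num)).mul
        ((contDiff_const.add (contDiff_id.const_smul r)).inner ℝ contDiff_const)
    have hFd : ∀ i y, fderiv ℝ (F i) y (b i) =
        fderiv ℝ (wgt (n := n)) y (b i) * ⟪Z y, b i⟫ + wgt y * r := by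
      intro i y
      have h1 : HasFDerivAt (fun y => ⟪Z y, b i⟫)
          ((innerSL ℝ (b i)).comp (r • ContinuousLinearMap.id ℝ (EuclideanSpace ℝ (Fin n)))) y := by
        have h0 := (innerSL ℝ (b i)).hasFDerivAt.comp y
          (((hasFDerivAt_id y).const_smul r).const_add x)
        refine h0.congr_of_eventuallyEq (Eventually.of_forall fun z => ?_)
        simp [hZd, real_inner_comm, inner_add_left, inner_smul_left]
      have h2 : HasFDerivAt (F i) _ y :=
        ((contDiff_wgt.differentiable (by norm_num)).differentiableAt.hasFDerivAt).mul h1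
      rw [h2.fderiv]
      simp [b.orthonormal.1 i]
      ring
    have hgc : ∀ y ∈ cb, ContDiffAt ℝ 1 (fun y => u (Z y) - m) y := fun y hy =>
      (ContDiffAt.comp (g := u) y ((H.u2 _ (hZ y hy).1).of_le (by norm_num))
        (by fun_prop)).sub contDiffAt_const
    have hi : ∀ i, r * ∫ y, F i y * fderiv ℝ u (Z y) (b i) =
        -∫ y, fderiv ℝ (F i) y (b i) * (u (Z y) - m) := by
      intro i
      have h := ibp hcb (hF1 i) (fun y hy => by simp [hF, wgt_zero hy]) hgc (b i)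
      rw [← h, ← integral_const_mul]
      refine integral_congr_ae (Eventually.of_forall fun y => ?_)
      by_cases hy : y ∈ cb
      · have hd' : HasFDerivAt (fun y => u (Z y) - m)
            ((fderiv ℝ u (Z y)).comp (r • ContinuousLinearMap.id ℝ (EuclideanSpace ℝ (Fin n)))) y :=
          (HasFDerivAt.comp (g := u) y (hd y hy).hasFDerivAt
            (((hasFDerivAt_id y).const_smul r).const_add x)).sub_const m
        simp [hd'.fderiv]
        ring
      · simp [hF, wgt_zero hy]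
    have hiF : ∀ i, Integrable (fun y => F i y * fderiv ℝ u (Z y) (b i)) := fun i =>
      integrable_supp hcb (fun y hy => (hF1 i).continuous.continuousAt.mul
        ((hDc y hy).clm_apply continuousAt_const)) fun y hy => by simp [hF, wgt_zero hy]
    have hdF0 : ∀ i, ∀ y, y ∉ cb → fderiv ℝ (F i) y (b i) = 0 := fun i y hy => by
      have : F i =ᶠ[𝓝 y] fun _ => 0 := by
        filter_upwards [hcb.isClosed.isOpen_compl.mem_nhds hy] with z hz
        simp [hF, wgt_zero (mem_compl_iff _ _ |>.1 hz)]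
      simp [this.fderiv_eq]
    have hiF' : ∀ i, Integrable (fun y => fderiv ℝ (F i) y (b i) * (u (Z y) - m)) := fun i =>
      integrable_supp hcb (fun y _ => ((((hF1 i).continuous_fderiv one_ne_zero).clm_apply
        continuous_const).mul ((H.cu.comp hZc).sub continuous_const)).continuousAt)
        fun y hy => by simp [hdF0 i y hy]
    have h1 : r * ∫ y, wgt y * fderiv ℝ u (Z y) (Z y) =
        -∫ y, (∑ i, fderiv ℝ (F i) y (b i)) * (u (Z y) - m) := by
      simp_rw [Finset.sum_mul]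
      rw [integral_finsetSum _ fun i _ => hiF' i, ← Finset.sum_neg_distrib]
      simp_rw [← hi]
      rw [← Finset.mul_sum, ← integral_finsetSum _ fun i _ => hiF i]
      congr 1
      refine integral_congr_ae (Eventually.of_forall fun y => ?_)
      simp only [hF, mul_assoc]
      rw [← Finset.mul_sum]
      congr 1
      conv_lhs => arg 2; rw [← b.sum_repr' (Z y)]
      simp [real_inner_comm (Z y)]
    have h2 : ∫ y, (∑ i, fderiv ℝ (F i) y (b i)) * (u (Z y) - m) ≤
        r * K₀ * ∫ y in cb, |u (Z y) - m| := by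
      have hiS : Integrable (fun y => (∑ i, fderiv ℝ (F i) y (b i)) * (u (Z y) - m)) := by
        simp_rw [Finset.sum_mul]; exact integrable_finsetSum _ fun i _ => hiF' i
      rw [← setIntegral_eq_integral_of_forall_compl_eq_zero (s := cb) fun y hy => by
        simp [hdF0 _ y hy], ← integral_const_mul]
      refine setIntegral_mono_on hiS.integrableOn (hiI.const_mul _) measurableSet_closedBall
        fun y hy => ?_
      refine (le_abs_self _).trans ?_
      rw [abs_mul]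
      refine mul_le_mul_of_nonneg_right ?_ (abs_nonneg _)
      simp only [hFd, Finset.sum_add_distrib, Finset.sum_const, Finset.card_univ, Fintype.card_fin,
        nsmul_eq_mul]
      have e : ∑ i, fderiv ℝ (wgt (n := n)) y (b i) * ⟪Z y, b i⟫ = fderiv ℝ wgt y (Z y) := by
        conv_rhs => rw [← b.sum_repr' (Z y), map_sum]
        simp [mul_comm, real_inner_comm (Z y)]
      rw [e]
      refine (abs_add_le _ _).trans ?_
      have a1 : |fderiv ℝ (wgt (n := n)) y (Z y)| ≤ max M₁ 0 * (3 * r) :=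
        ((fderiv ℝ (wgt (n := n)) y).le_opNorm _).trans (mul_le_mul
          (le_max_of_le_left (hM₁ (mem_image_of_mem _ hy))) (hZ y hy).2.2 (norm_nonneg _)
          (le_max_right _ _))
      have a2 : |(n : ℝ) * (wgt y * r)| ≤ n * (max M₂ 0 * r) := by
        rw [abs_of_nonneg (mul_nonneg (by positivity) (mul_nonneg (wgt_nonneg y) hr.le))]
        exact mul_le_mul_of_nonneg_left (mul_le_mul_of_nonneg_right
          (le_max_of_le_left (hM₂ (mem_image_of_mem _ hy))) hr.le) (by positivity)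
      rw [hK₀]
      linarith
    refine le_of_mul_le_mul_left ?_ hr
    linarith
  have hc0 : 0 ≤ 2 * (A + 2) := by linarith [H.hA]
  calc 2 * (A + 2) * (gam n A * (∫ y, wgt y * u (Z y)) - K₀ * ∫ y in cb, |u (Z y) - m|)
      ≤ 2 * (A + 2) * (gam n A * (∫ y, wgt y * u (Z y)) +
          ∫ y, wgt y * fderiv ℝ u (Z y) (Z y)) :=
        mul_le_mul_of_nonneg_left (by linarith) hc0
    _ = ∫ y, 2 * (A + 2) * (gam n A * (wgt y * u (Z y)) + wgt y * fderiv ℝ u (Z y) (Z y)) := by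
        rw [integral_const_mul, integral_add (hiu.const_mul _) hiD, integral_const_mul]
    _ ≤ _ := by
        refine integral_mono (((hiu.const_mul _).add hiD).const_mul _) hiP fun y => ?_
        have h0 : 0 ≤ wgt y * (‖Z y‖ ^ (A + 2) * v (Z y)) :=
          mul_nonneg (wgt_nonneg y) (mul_nonneg (rpow_nonneg (norm_nonneg _) _) (H.vp _).le)
        simp only [Phi, rayD]
        linarith

/-- The cutoff `((|y|² - 1/16) (4 - |y|²))₊ ^ k`. -/
def cut (k : ℕ) (y : EuclideanSpace ℝ (Fin n)) : ℝ :=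
  pp k ((‖y‖ ^ 2 - 1 / 16) * (4 - ‖y‖ ^ 2))

theorem cut_nonneg (k : ℕ) (y : EuclideanSpace ℝ (Fin n)) : 0 ≤ cut k y := pp_nonneg _ _

theorem cut_zero {k : ℕ} (hk : k ≠ 0) {y : EuclideanSpace ℝ (Fin n)}
    (hy : y ∉ closedBall 0 2 ∩ {z | 1 / 4 ≤ ‖z‖}) : cut k y = 0 := by
  refine pp_eq_zero hk ?_
  simp only [mem_inter_iff, mem_closedBall_zero_iff, mem_ofPred_eq, not_and_or, not_le] at hy
  rcases hy with h | h
  · exact mul_nonpos_of_nonneg_of_nonpos (by nlinarith) (by nlinarith)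
  · exact mul_nonpos_of_nonpos_of_nonneg (by nlinarith [norm_nonneg y])
      (by nlinarith [norm_nonneg y])

theorem contDiff_cut (k : ℕ) : ContDiff ℝ 2 (cut (n := n) (k + 3)) :=
  (contDiff_pp k).comp (((contDiff_norm_sq ℝ).sub contDiff_const).mul
    (contDiff_const.sub (contDiff_norm_sq ℝ)))

theorem laplacian_cut (k : ℕ) : ∃ C : ℝ, 0 ≤ C ∧ ∀ y : EuclideanSpace ℝ (Fin n),
    |Δ (cut (n := n) (k + 3)) y| ≤ C * cut (k + 1) y := by
  set K : ℝ := (k : ℝ) + 3 with hK
  have hK0 : 0 ≤ K := by positivity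
  refine ⟨16 * (K * K * 25) + 32 * (K * 16) + 2 * n * (K * 16 * 5), by positivity, fun y => ?_⟩
  set G : ℝ → ℝ := fun s => (s - 1 / 16) * (4 - s) with hG
  have hG' : ∀ s, HasDerivAt G (65 / 16 - 2 * s) s := fun s =>
    (((hasDerivAt_id s).sub_const (1 / 16)).mul ((hasDerivAt_id s).const_sub 4)).congr_deriv
      (by simp only [id_eq]; ring)
  set d1 : ℝ → ℝ := fun s => K * pp (k + 2) (G s) * (65 / 16 - 2 * s) with hd1
  have h1 : ∀ s, HasDerivAt (fun s => pp (k + 3) (G s)) (d1 s) s := fun s =>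
    ((hasDerivAt_pp (k + 1) (G s)).comp s (hG' s)).congr_deriv (by
      simp only [hd1, hK]; push_cast; ring)
  set S := ‖y‖ ^ 2
  set d2 := K * (((k : ℝ) + 2) * pp (k + 1) (G S) * (65 / 16 - 2 * S)) * (65 / 16 - 2 * S) +
    K * pp (k + 2) (G S) * (-2) with hd2
  have h2 : HasDerivAt d1 d2 S :=
    ((((hasDerivAt_pp k (G S)).comp S (hG' S)).const_mul K).mul
      (((hasDerivAt_id S).const_mul 2).const_sub (65 / 16))).congr_deriv (by
        simp only [hd2, Function.comp_apply, id_eq]; ring)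
  obtain ⟨-, hl⟩ := laplacian_radial_mul (φ := fun s => pp (k + 3) (G s)) (d1 := d1)
    (u := fun _ : EuclideanSpace ℝ (Fin n) => (1 : ℝ)) (x := y)
    ((contDiff_pp k).comp ((contDiff_id.sub contDiff_const).mul
      (contDiff_const.sub contDiff_id))).contDiffAt
    (Eventually.of_forall h1) h2 contDiffAt_const
  have hc : (cut (n := n) (k + 3)) = fun z => pp (k + 3) (G (‖z‖ ^ 2)) * 1 := by
    funext z; simp [cut, hG]
  rw [hc, hl]
  simp only [laplacian_const, Pi.zero_apply, mul_zero, mul_one, fderiv_fun_const,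
    _root_.zero_apply, add_zero]
  show _ ≤ _ * pp (k + 1) (G S)
  rcases le_or_gt (G S) 0 with h | h
  · have z1 : pp (k + 1) (G S) = 0 := pp_eq_zero (by omega) h
    have z2 : pp (k + 2) (G S) = 0 := pp_eq_zero (by omega) h
    have e1 : d2 = 0 := by simp [hd2, z1, z2]
    have e2 : d1 S = 0 := by simp [hd1, z2]
    rw [show d1 (‖y‖ ^ 2) = 0 from e2, e1, z1]
    simp
  · have hS : 1 / 16 < S ∧ S < 4 := by
      rcases mul_pos_iff.1 h with ⟨a, b⟩ | ⟨a, b⟩ <;> constructor <;> linarith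
    have hp1 : pp (k + 2) (G S) = G S * pp (k + 1) (G S) := by
      simp only [pp, max_eq_left h.le]; ring
    have hG16 : G S ≤ 16 := by simp only [hG]; nlinarith
    have hg5 : |65 / 16 - 2 * S| ≤ 5 := abs_le.2 ⟨by linarith, by linarith⟩
    have hP := pp_nonneg (k + 1) (G S)
    set Pk := pp (k + 1) (G S)
    set g := 65 / 16 - 2 * S
    have a1 : |4 * d2 * S| ≤ (16 * (K * K * 25) + 32 * (K * 16)) * Pk := by
      have b1 : |d2| ≤ (K * K * 25 + K * 16 * 2) * Pk := by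
        rw [hd2, hp1]
        refine (abs_add_le _ _).trans ?_
        rw [show (K * K * 25 + K * 16 * 2) * Pk = K * K * 25 * Pk + K * 16 * 2 * Pk from add_mul _ _ _]
        refine add_le_add ?_ ?_
        · rw [show K * (((k : ℝ) + 2) * Pk * g) * g = K * ((k : ℝ) + 2) * Pk * g ^ 2 by ring,
            abs_of_nonneg (by positivity)]
          have : g ^ 2 ≤ 25 := by nlinarith [sq_abs g, abs_nonneg g]
          calc K * ((k : ℝ) + 2) * Pk * g ^ 2 ≤ K * K * Pk * 25 := by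
                refine mul_le_mul ?_ this (sq_nonneg g) (by positivity)
                exact mul_le_mul_of_nonneg_right
                  (mul_le_mul_of_nonneg_left (by linarith) hK0) hP
            _ = _ := by ring
        · rw [show K * (G S * Pk) * -2 = -(K * (G S * Pk) * 2) by ring, abs_neg,
            abs_of_nonneg (by positivity)]
          nlinarith [mul_nonneg hK0 hP]
      rw [abs_mul, abs_mul, abs_of_nonneg (by norm_num : (0 : ℝ) ≤ 4),
        abs_of_nonneg (by linarith : 0 ≤ S)]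
      calc 4 * |d2| * S ≤ 4 * ((K * K * 25 + K * 16 * 2) * Pk) * 4 := by
            gcongr; exact hS.2.le
        _ = _ := by ring
    have a2 : |2 * (n : ℝ) * d1 S| ≤ 2 * n * (K * 16 * 5) * Pk := by
      rw [abs_mul, abs_of_nonneg (by positivity : (0 : ℝ) ≤ 2 * n), mul_assoc (2 * (n : ℝ))]
      refine mul_le_mul_of_nonneg_left ?_ (by positivity)
      simp only [hd1]
      rw [hp1, abs_mul, abs_of_nonneg (by positivity)]
      calc K * (G S * Pk) * |g| ≤ K * (16 * Pk) * 5 := by gcongr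
        _ = _ := by ring
    refine (abs_add_le _ _).trans ?_
    linarith

/-- The average over a ball is controlled by the integral against the cutoff. -/
theorem ball_le {R : ℝ} (hR0 : 0 < R) {u : EuclideanSpace ℝ (Fin n) → ℝ} (hu : Continuous u)
    (hup : ∀ x, 0 < u x) (j : ℕ) {x : EuclideanSpace ℝ (Fin n)} (hx : ‖x‖ = R) :
    ∫ y in closedBall (0 : EuclideanSpace ℝ (Fin n)) 1, |u (x + (R / 2) • y)| ≤
      (2 : ℝ) ^ n / (1 / 4 : ℝ) ^ (j + 1) * ∫ y, cut (j + 1) y * u (R • y) := by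
  set κ : ℝ := (1 / 4 : ℝ) ^ (j + 1) with hκ
  have hκ0 : 0 < κ := by positivity
  set z₀ : EuclideanSpace ℝ (Fin n) := R⁻¹ • x with hz₀
  have hz1 : ‖z₀‖ = 1 := by
    rw [hz₀, norm_smul, norm_inv, Real.norm_eq_abs, abs_of_pos hR0, hx, inv_mul_cancel₀ hR0.ne']
  have hzy : ∀ y : EuclideanSpace ℝ (Fin n),
      x + (R / 2) • y = R • (z₀ + (2 : ℝ)⁻¹ • y) := fun y => by
    rw [hz₀, smul_add, smul_smul, mul_inv_cancel₀ hR0.ne', one_smul, smul_smul]
    rfl
  have hpk : Continuous (cut (n := n) (j + 1)) := by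
    unfold cut; exact (continuous_pp _).comp (by fun_prop)
  have hiC : Integrable (fun y : EuclideanSpace ℝ (Fin n) => cut (j + 1) y * u (R • y)) :=
    integrable_supp (K := closedBall 0 2 ∩ {z | 1 / 4 ≤ ‖z‖}) ((isCompact_closedBall 0 2).inter_right
      (isClosed_le continuous_const continuous_norm))
      (fun y _ => (hpk.mul (hu.comp (by fun_prop))).continuousAt)
      fun y hy => by simp [cut_zero (show j + 1 ≠ 0 by omega) hy]
  have hiZ : Integrable (fun y : EuclideanSpace ℝ (Fin n) =>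
      cut (j + 1) (z₀ + (2 : ℝ)⁻¹ • y) * u (R • (z₀ + (2 : ℝ)⁻¹ • y))) :=
    (hiC.comp_add_left z₀).comp_smul (inv_ne_zero two_ne_zero)
  calc ∫ y in closedBall (0 : EuclideanSpace ℝ (Fin n)) 1, |u (x + (R / 2) • y)|
      ≤ ∫ y in closedBall (0 : EuclideanSpace ℝ (Fin n)) 1,
          κ⁻¹ * (cut (j + 1) (z₀ + (2 : ℝ)⁻¹ • y) * u (R • (z₀ + (2 : ℝ)⁻¹ • y))) := by
        refine setIntegral_mono_on ((hu.comp (by fun_prop)).abs.continuousOn.integrableOn_compact
          (isCompact_closedBall 0 1)) (hiZ.const_mul _).integrableOn measurableSet_closedBall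
          fun y hy => ?_
        rw [abs_of_pos (hup _), hzy, ← mul_assoc]
        refine le_mul_of_one_le_left (hup _).le ?_
        rw [← div_eq_inv_mul, one_le_div hκ0]
        rw [mem_closedBall_zero_iff] at hy
        have hn1 : ‖(2 : ℝ)⁻¹ • y‖ ≤ 1 / 2 := by rw [norm_smul]; norm_num; linarith
        have a1 : 1 / 2 ≤ ‖z₀ + (2 : ℝ)⁻¹ • y‖ := by
          have := norm_sub_le_norm_add z₀ ((2 : ℝ)⁻¹ • y)
          linarith
        have a2 : ‖z₀ + (2 : ℝ)⁻¹ • y‖ ≤ 3 / 2 := (norm_add_le _ _).trans (by linarith)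
        simp only [cut, pp, hκ]
        refine pow_le_pow_left₀ (by norm_num) (le_max_of_le_left ?_) _
        generalize ‖z₀ + (2 : ℝ)⁻¹ • y‖ = T at a1 a2
        have b1 : 1 / 4 ≤ T ^ 2 := by nlinarith
        have b2 : T ^ 2 ≤ 9 / 4 := by nlinarith
        nlinarith [mul_le_mul (show (3 : ℝ) / 16 ≤ T ^ 2 - 1 / 16 by linarith)
          (show (7 : ℝ) / 4 ≤ 4 - T ^ 2 by linarith) (by norm_num) (by linarith)]
    _ ≤ ∫ y, κ⁻¹ * (cut (j + 1) (z₀ + (2 : ℝ)⁻¹ • y) * u (R • (z₀ + (2 : ℝ)⁻¹ • y))) :=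
        setIntegral_le_integral (hiZ.const_mul _) (Eventually.of_forall fun y =>
          mul_nonneg (inv_nonneg.2 hκ0.le) (mul_nonneg (cut_nonneg _ _) (hup _).le))
    _ = _ := by
        rw [integral_const_mul, Measure.integral_comp_inv_smul_of_nonneg volume
          (fun y => cut (j + 1) (z₀ + y) * u (R • (z₀ + y))) two_pos.le,
          finrank_euclideanSpace_fin, smul_eq_mul,
          integral_add_left_eq_self (fun y => cut (j + 1) y * u (R • y)) z₀]
        ring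

/-- Averages of `u` over balls of comparable radius tend to zero. -/
theorem average_small (H : Sol n A B q u v) : ∀ δ : ℝ, 0 < δ → ∃ R₀ : ℝ, ∀ x : EuclideanSpace ℝ (Fin n),
    R₀ ≤ ‖x‖ → ∫ y in closedBall (0 : EuclideanSpace ℝ (Fin n)) 1, |u (x + (‖x‖ / 2) • y)| ≤ δ := by
  set e : ℝ := 1 / (q - 1) with he
  have he0 : 0 < e := div_pos one_pos (sub_pos.2 H.hq)
  obtain ⟨j, hj⟩ := exists_nat_ge (4 * e)
  -- `m = j + 5`
  obtain ⟨C₁, hC₁, hL₁⟩ := laplacian_cut (n := n) (j + 2)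
  obtain ⟨C₂, hC₂, hL₂⟩ := laplacian_cut (n := n) j
  set K : Set (EuclideanSpace ℝ (Fin n)) := closedBall 0 2 ∩ {z | 1 / 4 ≤ ‖z‖} with hKd
  have hK : IsCompact K :=
    (isCompact_closedBall 0 2).inter_right (isClosed_le continuous_const continuous_norm)
  have hK0 : ∀ y ∈ K, y ≠ 0 := fun y hy h => by
    simp only [hKd, mem_inter_iff, mem_ofPred_eq, h, norm_zero] at hy; linarith [hy.2]
  have hw : ∀ s : ℝ, ∃ L : ℝ, 0 < L ∧ ∀ y ∈ K, (1 : ℝ) ≤ L * ‖y‖ ^ s := fun s => by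
    obtain ⟨M, hM⟩ := hK.bddAbove_image (f := fun y => ‖y‖ ^ (-s)) fun y hy =>
      (continuous_norm.continuousAt.rpow_const
        (Or.inl (norm_ne_zero_iff.2 (hK0 y hy)))).continuousWithinAt
    refine ⟨max M 1, by positivity, fun y hy => ?_⟩
    have hr := norm_pos_iff.2 (hK0 y hy)
    have := le_max_of_le_left (c := (1 : ℝ)) (hM (mem_image_of_mem _ hy))
    calc (1 : ℝ) = ‖y‖ ^ (-s) * ‖y‖ ^ s := by rw [← rpow_add hr, neg_add_cancel, rpow_zero]
      _ ≤ _ := mul_le_mul_of_nonneg_right this (rpow_nonneg hr.le _)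
  obtain ⟨LA, hLA, hLA'⟩ := hw A
  obtain ⟨LB, hLB, hLB'⟩ := hw B
  set C₀ := C₁ * LA * C₂ * LB + 1 with hC₀
  have hC₀p : 0 < C₀ := by positivity
  set V := ∫ y : EuclideanSpace ℝ (Fin n) in K, (16 : ℝ) ^ ((j : ℝ) + 1 - 4 * e) with hV
  have hV0 : 0 ≤ V := integral_nonneg fun y => by positivity
  set κ : ℝ := (1 / 4 : ℝ) ^ (j + 1) with hκ
  have hκ0 : 0 < κ := by positivity
  set σe := 4 + A + B with hσe
  have hσ : 0 < σe := by linarith [H.hA, H.hB]
  intro δ hδ
  have hlim : Tendsto (fun R : ℝ => (2 : ℝ) ^ n / κ * (2 * V * (R ^ σe / (2 * C₀)) ^ (-e)))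
      atTop (𝓝 0) := by
    have h1 : Tendsto (fun R : ℝ => R ^ σe / (2 * C₀)) atTop atTop :=
      (tendsto_rpow_atTop hσ).atTop_div_const (by positivity)
    have := (((tendsto_rpow_neg_atTop he0).comp h1).const_mul (2 * V)).const_mul ((2 : ℝ) ^ n / κ)
    simpa using this
  obtain ⟨R₁, hR₁⟩ := eventually_atTop.1 (hlim.eventually (eventually_le_nhds hδ))
  refine ⟨max R₁ 1, fun x hx => ?_⟩
  set R := ‖x‖ with hR
  have hR0 : 0 < R := one_pos.trans_le ((le_max_right _ _).trans hx)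
  refine le_trans ?_ (hR₁ R ((le_max_left _ _).trans hx))
  set uR : EuclideanSpace ℝ (Fin n) → ℝ := fun y => u (R • y) with huR
  set vR : EuclideanSpace ℝ (Fin n) → ℝ := fun y => v (R • y) with hvR
  have hRy : ∀ y ∈ K, R • y ≠ 0 := fun y hy => smul_ne_zero hR0.ne' (hK0 y hy)
  have huR2 : ∀ y ∈ K, ContDiffAt ℝ 2 uR y := fun y hy => (laplacian_dil (H.u2 _ (hRy y hy))).1
  have hvR2 : ∀ y ∈ K, ContDiffAt ℝ 2 vR y := fun y hy => (laplacian_dil (H.v2 _ (hRy y hy))).1
  have heu : ∀ y ∈ K, Δ uR y = -(R ^ (2 + A) * (‖y‖ ^ A * vR y)) := fun y hy => by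
    rw [(laplacian_dil (H.u2 _ (hRy y hy))).2, H.eu _ (hRy y hy), norm_smul, Real.norm_eq_abs,
      abs_of_pos hR0, mul_rpow hR0.le (norm_nonneg _), rpow_add hR0, rpow_two]
    simp only [hvR]; ring
  have hev : ∀ y ∈ K, Δ vR y = -(R ^ (2 + B) * (‖y‖ ^ B * uR y ^ q)) := fun y hy => by
    rw [(laplacian_dil (H.v2 _ (hRy y hy))).2, H.ev _ (hRy y hy), norm_smul, Real.norm_eq_abs,
      abs_of_pos hR0, mul_rpow hR0.le (norm_nonneg _), rpow_add hR0, rpow_two]
    simp only [huR]; ring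
  have huc : Continuous uR := H.cu.comp (by fun_prop)
  have hvc : Continuous vR := H.cv.comp (by fun_prop)
  have hpk : ∀ i : ℕ, Continuous (cut (n := n) i) := fun i => by
    unfold cut; exact (continuous_pp i).comp (by fun_prop)
  have hint : ∀ {i : ℕ}, i ≠ 0 → ∀ {f : EuclideanSpace ℝ (Fin n) → ℝ}, (∀ y ∈ K, ContinuousAt f y) →
      Integrable (fun y => cut i y * f y) := fun hi f hf =>
    integrable_supp hK (fun y hy => (hpk _).continuousAt.mul (hf y hy))
      fun y hy => by simp [cut_zero hi hy]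
  have hnc : ∀ {s : ℝ}, ∀ y ∈ K, ContinuousAt (fun y : EuclideanSpace ℝ (Fin n) => ‖y‖ ^ s) y := fun y hy =>
    continuous_norm.continuousAt.rpow_const (Or.inl (norm_ne_zero_iff.2 (hK0 y hy)))
  set X := ∫ y, cut (j + 5) y * (‖y‖ ^ B * uR y ^ q) with hX
  set Y := ∫ y, cut (j + 3) y * (‖y‖ ^ A * vR y) with hY
  set Z := ∫ y, cut (j + 1) y * uR y with hZ
  have huq : ∀ y ∈ K, ContinuousAt (fun y => ‖y‖ ^ B * uR y ^ q) y := fun y hy =>
    (hnc y hy).mul (huc.continuousAt.rpow_const (Or.inl (H.up _).ne'))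
  have hva : ∀ y ∈ K, ContinuousAt (fun y => ‖y‖ ^ A * vR y) y := fun y hy =>
    (hnc y hy).mul hvc.continuousAt
  have hstep : ∀ (k : ℕ) (C : ℝ), 0 ≤ C → (∀ y : EuclideanSpace ℝ (Fin n), |Δ (cut (n := n) (k + 3)) y| ≤ C * cut (k + 1) y) →
      ∀ (f g : EuclideanSpace ℝ (Fin n) → ℝ) (T : ℝ), (∀ y ∈ K, ContDiffAt ℝ 2 f y) → Continuous f → (∀ y, 0 ≤ f y) →
        (∀ y ∈ K, Δ f y = -(T * g y)) → (∀ y ∈ K, ContinuousAt g y) →
        T * ∫ y, cut (k + 3) y * g y ≤ C * ∫ y, cut (k + 1) y * f y := by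
    intro k C hC hL f g T hf hfc hf0 hfe hg
    rw [← integral_const_mul, ← integral_const_mul]
    calc ∫ y, T * (cut (k + 3) y * g y) = -∫ y, cut (k + 3) y * Δ f y := by
          rw [← integral_neg]
          refine integral_congr_ae (Eventually.of_forall fun y => ?_)
          by_cases hy : y ∈ K
          · simp only [hfe y hy]; ring
          · simp [cut_zero (show k + 3 ≠ 0 by omega) hy]
      _ = ∫ y, -(Δ (cut (n := n) (k + 3)) y * f y) := by
          rw [integral_neg, green hK (contDiff_cut k) (fun y hy => cut_zero (by omega) hy) hf]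
      _ ≤ ∫ y, C * (cut (k + 1) y * f y) := by
          refine integral_mono ?_ ((hint (by omega) fun y _ => hfc.continuousAt).const_mul C)
            fun y => ?_
          · refine (integrable_supp hK (fun y hy => ((continuousAt_laplacian
              (contDiff_cut k).contDiffAt).mul hfc.continuousAt).neg) fun y hy => ?_)
            have := hL y
            rw [cut_zero (show k + 1 ≠ 0 by omega) hy, mul_zero, abs_nonpos_iff] at this
            simp [this]
          · rw [← mul_assoc, ← neg_mul]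
            exact mul_le_mul_of_nonneg_right ((neg_le_abs _).trans (hL y)) (hf0 y)
  have h1 : R ^ (2 + B) * X ≤ C₁ * LA * Y := by
    refine (hstep (j + 2) C₁ hC₁ hL₁ vR _ _ hvR2 hvc (fun y => (H.vp _).le) hev huq).trans ?_
    rw [mul_assoc C₁]
    refine mul_le_mul_of_nonneg_left ?_ hC₁
    rw [hY, ← integral_const_mul]
    refine integral_mono (hint (by omega) fun y _ => hvc.continuousAt)
      ((hint (by omega) hva).const_mul _) fun y => ?_
    by_cases hy : y ∈ K
    · have := mul_le_mul_of_nonneg_right (hLA' y hy)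
        (mul_nonneg (cut_nonneg (j + 3) y) (H.vp (R • y)).le)
      simp only [hvR] at this ⊢
      linarith
    · simp [cut_zero (show j + 2 + 1 ≠ 0 by omega) hy]
  have h2 : R ^ (2 + A) * Y ≤ C₂ * Z :=
    hstep j C₂ hC₂ hL₂ uR _ _ huR2 huc (fun y => (H.up _).le) heu hva
  have hRs : R ^ (2 + B) * R ^ (2 + A) = R ^ σe := by rw [← rpow_add hR0, hσe]; ring_nf
  have h3 : R ^ σe * X ≤ C₁ * LA * C₂ * Z := by
    rw [← hRs]
    calc R ^ (2 + B) * R ^ (2 + A) * X = R ^ (2 + A) * (R ^ (2 + B) * X) := by ring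
      _ ≤ R ^ (2 + A) * (C₁ * LA * Y) := mul_le_mul_of_nonneg_left h1 (by positivity)
      _ = C₁ * LA * (R ^ (2 + A) * Y) := by ring
      _ ≤ C₁ * LA * (C₂ * Z) := mul_le_mul_of_nonneg_left h2 (by positivity)
      _ = _ := by ring
  set d := R ^ σe / (2 * C₀) with hd
  have hd0 : 0 < d := by positivity
  have h4 : Z ≤ d * LB * X + d ^ (-e) * V := by
    rw [hX, hV, hZ, ← integral_const_mul, ← integral_const_mul,
      ← integral_indicator hK.measurableSet]
    have hiV : Integrable (K.indicator fun _ : EuclideanSpace ℝ (Fin n) => d ^ (-e) * (16 : ℝ) ^ ((j : ℝ) + 1 - 4 * e)) :=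
      (integrable_indicator_iff hK.measurableSet).2
        (continuous_const.continuousOn.integrableOn_compact hK)
    rw [← integral_add ((hint (by omega) huq).const_mul _) hiV]
    refine integral_mono (hint (by omega) fun y _ => huc.continuousAt)
      (((hint (by omega) huq).const_mul _).add hiV) fun y => ?_
    simp only
    by_cases hy : y ∈ K
    · rw [indicator_of_mem hy]
      simp only [cut]
      set G := (‖y‖ ^ 2 - 1 / 16) * (4 - ‖y‖ ^ 2) with hG
      rcases le_or_gt G 0 with hG0 | hG0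
      · rw [pp_eq_zero (by omega) hG0, pp_eq_zero (by omega) hG0]
        simp only [zero_mul, mul_zero, zero_add]
        positivity
      simp only [pp, max_eq_left hG0.le]
      set w := uR y
      have hw0 : 0 < w := H.up _
      have hG16 : G ≤ 16 := by
        rw [hG]
        nlinarith [sq_nonneg (‖y‖ ^ 2 - 65 / 32)]
      have hb : (1 : ℝ) ≤ LB * ‖y‖ ^ B := hLB' y hy
      rcases le_or_gt 1 (d * G ^ 4 * w ^ (q - 1)) with hc | hc
      · have h5 : G ^ (j + 1) * w ≤ d * (G ^ (j + 5) * w ^ q) := by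
          calc G ^ (j + 1) * w ≤ G ^ (j + 1) * w * (d * G ^ 4 * w ^ (q - 1)) :=
                le_mul_of_one_le_right (by positivity) hc
            _ = d * (G ^ (j + 5) * (w ^ (q - 1) * w)) := by ring
            _ = _ := by rw [← rpow_add_one hw0.ne', sub_add_cancel]
        have h6 := mul_le_mul_of_nonneg_right hb
          (show 0 ≤ d * (G ^ (j + 5) * w ^ q) by positivity)
        have h7 : 0 ≤ d ^ (-e) * (16 : ℝ) ^ ((j : ℝ) + 1 - 4 * e) := by positivity
        linarith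
      · have hw1 : w ≤ (d * G ^ 4) ^ (-e) := by
          have h5 : w ^ (q - 1) ≤ (d * G ^ 4)⁻¹ := by
            rw [inv_eq_one_div, le_div_iff₀ (by positivity), mul_comm]; exact hc.le
          have h6 := rpow_le_rpow (by positivity) h5 he0.le
          rw [← rpow_mul hw0.le, he, mul_one_div_cancel (sub_ne_zero.2 H.hq.ne'), rpow_one,
            inv_rpow (by positivity), ← rpow_neg (by positivity)] at h6
          exact h6
        have h5 : G ^ (j + 1) * w ≤ d ^ (-e) * (16 : ℝ) ^ ((j : ℝ) + 1 - 4 * e) := by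
          calc G ^ (j + 1) * w ≤ G ^ (j + 1) * (d * G ^ 4) ^ (-e) :=
                mul_le_mul_of_nonneg_left hw1 (by positivity)
            _ = d ^ (-e) * G ^ ((j : ℝ) + 1 - 4 * e) := by
                rw [mul_rpow hd0.le (by positivity), ← rpow_natCast G (j + 1), ← rpow_natCast G 4,
                  ← rpow_mul hG0.le, mul_left_comm, ← rpow_add hG0]
                push_cast; ring_nf
            _ ≤ _ := mul_le_mul_of_nonneg_left
                (rpow_le_rpow hG0.le hG16 (by linarith)) (by positivity)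
        have h6 : 0 ≤ d * LB * (G ^ (j + 5) * (‖y‖ ^ B * w ^ q)) := by positivity
        linarith
    · rw [indicator_of_notMem hy, cut_zero (show j + 1 ≠ 0 by omega) hy,
        cut_zero (show j + 5 ≠ 0 by omega) hy]
      simp
  have hX0 : 0 ≤ X := integral_nonneg fun y => mul_nonneg (cut_nonneg _ _)
    (mul_nonneg (rpow_nonneg (norm_nonneg _) _) (rpow_nonneg (H.up _).le _))
  have h5 : Z ≤ 2 * V * d ^ (-e) := by
    have hZ0 : 0 ≤ Z := integral_nonneg fun y => mul_nonneg (cut_nonneg _ _) (H.up _).le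
    have h6 : d * LB * X ≤ Z / 2 := by
      have e1 : d * LB * X = LB / (2 * C₀) * (R ^ σe * X) := by rw [hd]; ring
      rw [e1]
      refine (mul_le_mul_of_nonneg_left h3 (by positivity)).trans ?_
      rw [show LB / (2 * C₀) * (C₁ * LA * C₂ * Z) = (C₁ * LA * C₂ * LB) / C₀ * (Z / 2) by ring]
      refine mul_le_of_le_one_left (by positivity) ((div_le_one hC₀p).2 ?_)
      rw [hC₀]; linarith
    linarith
  refine (ball_le hR0 H.cu H.up j hR.symm).trans ?_
  refine mul_le_mul_of_nonneg_left ?_ (by positivity)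
  simpa [hd] using h5

/-- `Φ` is at least `2 (A + 2) γ u(0)` near the origin, up to an error. -/
theorem phi_near (H : Sol n A B q u v) {ε : ℝ} (hε : 0 < ε) :
    ∃ r₀ : ℝ, 0 < r₀ ∧ ∀ x : EuclideanSpace ℝ (Fin n), x ≠ 0 → ‖x‖ < r₀ →
      2 * (A + 2) * gam n A * u 0 - ε ≤ Phi A u v x := by
  obtain ⟨K₀, hK₀, hmean⟩ := phi_mean H
  set κ := ∫ y : EuclideanSpace ℝ (Fin n), wgt y
  have hκ : 0 < κ := integral_wgt_pos
  set V := ∫ _y in closedBall (0 : EuclideanSpace ℝ (Fin n)) 1, (1 : ℝ)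
  have hV : 0 ≤ V := integral_nonneg fun _ => zero_le_one
  have hc0 : 0 ≤ 2 * (A + 2) := by linarith [H.hA]
  set τ := ε * κ / (2 * (A + 2) * (gam n A * κ + K₀ * V) + 1) with hτ
  have hτ0 : 0 < τ := div_pos (mul_pos hε hκ) (by
    have := mul_nonneg hc0 (add_nonneg (mul_nonneg H.hg.le hκ.le) (mul_nonneg hK₀ hV))
    linarith)
  obtain ⟨d, hd, hball⟩ := Metric.continuousAt_iff.1 (H.cu.continuousAt (x := 0)) τ hτ0
  refine ⟨d / 2, half_pos hd, fun x hx hxd => ?_⟩
  have hnear : ∀ y ∈ closedBall (0 : EuclideanSpace ℝ (Fin n)) 1, |u (x + (‖x‖ / 2) • y) - u 0| ≤ τ := fun y hy => by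
    refine (le_of_lt (hball ?_))
    rw [dist_zero_right]
    rw [mem_closedBall_zero_iff] at hy
    refine (norm_add_le _ _).trans_lt ?_
    rw [norm_smul, Real.norm_eq_abs, abs_of_nonneg (by positivity)]
    nlinarith [norm_nonneg x]
  have h := hmean x (u 0) hx
  have h1 : (u 0 - τ) * κ ≤ ∫ y, wgt y * u (x + (‖x‖ / 2) • y) := by
    rw [mul_comm, ← integral_mul_const]
    refine integral_mono ((integrable_supp (isCompact_closedBall 0 1)
      (fun y _ => contDiff_wgt.continuous.continuousAt) fun y hy => wgt_zero hy).mul_const _)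
      (integrable_supp (isCompact_closedBall 0 1) (fun y _ => (contDiff_wgt.continuous.mul
        (H.cu.comp (by fun_prop))).continuousAt) fun y hy => by simp [wgt_zero hy]) fun y => ?_
    by_cases hy : y ∈ closedBall (0 : EuclideanSpace ℝ (Fin n)) 1
    · exact mul_le_mul_of_nonneg_left (by linarith [(abs_le.1 (hnear y hy)).1]) (wgt_nonneg y)
    · simp [wgt_zero hy]
  have h2 : ∫ y in closedBall (0 : EuclideanSpace ℝ (Fin n)) 1, |u (x + (‖x‖ / 2) • y) - u 0| ≤ τ * V := by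
    rw [← integral_const_mul]
    refine setIntegral_mono_on (((H.cu.comp (by fun_prop)).sub
      continuous_const).abs.continuousOn.integrableOn_compact (isCompact_closedBall 0 1))
      (continuous_const.continuousOn.integrableOn_compact (isCompact_closedBall 0 1))
      measurableSet_closedBall fun y hy => by simpa using hnear y hy
  have h3 : τ * (2 * (A + 2) * (gam n A * κ + K₀ * V)) ≤ ε * κ := by
    have h4 : τ * (2 * (A + 2) * (gam n A * κ + K₀ * V) + 1) = ε * κ := by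
      have := mul_nonneg hc0 (add_nonneg (mul_nonneg H.hg.le hκ.le) (mul_nonneg hK₀ hV))
      exact div_mul_cancel₀ _ (ne_of_gt (by linarith))
    linarith
  have h5 := mul_le_mul_of_nonneg_left
    (show gam n A * ((u 0 - τ) * κ) - K₀ * (τ * V) ≤ gam n A *
      (∫ y, wgt y * u (x + (‖x‖ / 2) • y)) -
        K₀ * ∫ y in closedBall (0 : EuclideanSpace ℝ (Fin n)) 1, |u (x + (‖x‖ / 2) • y) - u 0| by
      linarith [mul_le_mul_of_nonneg_left h1 H.hg.le, mul_le_mul_of_nonneg_left h2 hK₀]) hc0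
  refine le_of_mul_le_mul_right (a := κ) ?_ hκ
  linarith

/-- The lower limit of `Φ` at infinity is nonnegative. -/
theorem phi_far (H : Sol n A B q u v) {δ : ℝ} (hδ : 0 < δ) :
    ∃ R : ℝ, ∀ x : EuclideanSpace ℝ (Fin n), R ≤ ‖x‖ → -δ ≤ Phi A u v x := by
  obtain ⟨K₀, hK₀, hmean⟩ := phi_mean H
  set κ := ∫ y : EuclideanSpace ℝ (Fin n), wgt y
  have hκ : 0 < κ := integral_wgt_pos
  have hc0 : 0 ≤ 2 * (A + 2) := by linarith [H.hA]
  set D := 2 * (A + 2) * K₀ + 1 with hD
  have hD0 : 0 < D := by positivity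
  obtain ⟨R, hR⟩ := average_small H (δ * κ / D) (by positivity)
  refine ⟨max R 1, fun x hx => ?_⟩
  have hx0 : x ≠ 0 := norm_pos_iff.1 (one_pos.trans_le ((le_max_right _ _).trans hx))
  have h := hmean x 0 hx0
  simp only [sub_zero] at h
  have h1 : 0 ≤ ∫ y, wgt y * u (x + (‖x‖ / 2) • y) :=
    integral_nonneg fun y => mul_nonneg (wgt_nonneg y) (H.up _).le
  have h2 := hR x ((le_max_left _ _).trans hx)
  refine le_of_mul_le_mul_right (a := κ) ?_ hκ
  refine le_trans ?_ h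
  have h3 : 2 * (A + 2) * (K₀ * ∫ y in closedBall (0 : EuclideanSpace ℝ (Fin n)) 1, |u (x + (‖x‖ / 2) • y)|) ≤ δ * κ := by
    calc _ ≤ 2 * (A + 2) * (K₀ * (δ * κ / D)) :=
          mul_le_mul_of_nonneg_left (mul_le_mul_of_nonneg_left h2 hK₀) hc0
      _ = (2 * (A + 2) * K₀) / D * (δ * κ) := by ring
      _ ≤ _ := mul_le_of_le_one_left (by positivity) ((div_le_one hD0).2 (by rw [hD]; linarith))
  have h4 := mul_nonneg hc0 (mul_nonneg H.hg.le h1)
  linarith

/-- `Φ` is positive off the origin. -/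
theorem phi_pos (H : Sol n A B q u v) {x : EuclideanSpace ℝ (Fin n)} (hx : x ≠ 0) :
    0 < Phi A u v x := by
  have hn : 0 < n := by linarith [H.hn]
  have happ : ∀ (a T : ℝ), 0 < a → ∀ η : ℝ, 0 < η → ∃ w' : EuclideanSpace ℝ (Fin n) → ℝ,
      (∀ y, a ≤ ‖y‖ → ‖y‖ ≤ T → ContDiffAt ℝ 2 w' y ∧ |w' y - Phi A u v y| ≤ η) ∧
      ∀ y, a ≤ ‖y‖ → ‖y‖ ≤ T → Δ w' y ≤ -(‖y‖ ^ (A + 2 + B) * u y ^ q) + η := by
    intro a T ha η hη
    set S : Set (EuclideanSpace ℝ (Fin n)) := closedBall 0 T ∩ {y | a ≤ ‖y‖}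
    have hS : ∀ y, a ≤ ‖y‖ → ‖y‖ ≤ T → y ∈ S := fun y h h' =>
      ⟨mem_closedBall_zero_iff.2 h', h⟩
    have hS0 : ∀ y ∈ S, y ≠ 0 := fun y hy => norm_pos_iff.1 (ha.trans_le hy.2)
    obtain ⟨w, hw, hwS⟩ := approx H ((isCompact_closedBall 0 T).inter_right
      (isClosed_le continuous_const continuous_norm)) hS0 hη
    exact ⟨w, fun y h h' => ⟨hw y (hS0 y (hS y h h')), (hwS y (hS y h h')).1⟩,
      fun y h h' => (hwS y (hS y h h')).2⟩
  have hnn : ∀ z, z ≠ 0 → 0 ≤ Phi A u v z := by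
    intro z hz
    refine le_of_forall_pos_le_add fun δ hδ => ?_
    have hp : 0 < 2 * (A + 2) * gam n A * u 0 :=
      mul_pos (mul_pos (by linarith [H.hA]) H.hg) (H.up 0)
    obtain ⟨r₀, hr₀, hnear⟩ := phi_near H hp
    obtain ⟨R, hR⟩ := phi_far H hδ
    have hzp := norm_pos_iff.2 hz
    set a := min ‖z‖ (r₀ / 2)
    have ha : 0 < a := lt_min hzp (half_pos hr₀)
    have h := annulus_lim (w := Phi A u v) (φ := fun _ => -δ) (d1 := fun _ => 0) (d2 := fun _ => 0)
      (ε := a) (ρ := max R ‖z‖) hn ha (fun s _ => hasDerivAt_const s _)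
      (fun s _ => hasDerivAt_const s _) (fun η hη => ?_) (fun y hy => ?_) (fun y hy => ?_)
      (min_le_left _ _) (le_max_right _ _)
    · linarith
    · obtain ⟨w, hw, hl⟩ := happ a (max R ‖z‖) ha η hη
      refine ⟨w, hw, fun y h1 h2 => (hl y h1.le h2.le).trans ?_⟩
      have := mul_nonneg (rpow_nonneg (norm_nonneg y) (A + 2 + B)) (rpow_nonneg (H.up y).le q)
      simp only [mul_zero, zero_mul, add_zero, zero_add]
      linarith
    · have := hnear y (norm_pos_iff.1 (hy ▸ ha)) (by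
        rw [hy]; linarith [min_le_right ‖z‖ (r₀ / 2)])
      linarith
    · exact hR y (hy.symm ▸ le_max_left _ _)
  have hxp := norm_pos_iff.2 hx
  set S : Set (EuclideanSpace ℝ (Fin n)) := closedBall 0 (2 * ‖x‖) ∩ {y | ‖x‖ / 2 ≤ ‖y‖}
  obtain ⟨z, hz, hzmin⟩ := ((isCompact_closedBall (0 : EuclideanSpace ℝ (Fin n)) (2 * ‖x‖)).inter_right
    (isClosed_le continuous_const continuous_norm)).exists_isMinOn (s := S)
    ⟨x, mem_closedBall_zero_iff.2 (by linarith), show ‖x‖ / 2 ≤ ‖x‖ by linarith⟩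
    (f := fun y => ‖y‖ ^ (A + 2 + B) * u y ^ q) fun y hy =>
      ((continuous_norm.continuousAt.rpow_const (Or.inl (ne_of_gt (by
        have : ‖x‖ / 2 ≤ ‖y‖ := hy.2
        linarith)))).mul (H.cu.continuousAt.rpow_const (Or.inl (H.up y).ne'))).continuousWithinAt
  have hm : 0 < ‖z‖ ^ (A + 2 + B) * u z ^ q := mul_pos (rpow_pos_of_pos (by
    have : ‖x‖ / 2 ≤ ‖z‖ := hz.2
    linarith) _) (rpow_pos_of_pos (H.up z) q)
  refine strict_pos (ε := ‖x‖ / 2) (ρ := 2 * ‖x‖) hn (half_pos hxp) hm (fun η hη => ?_)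
    (fun y h1 _ => hnn y (norm_pos_iff.1 ((half_pos hxp).trans_le h1)))
    (by linarith) (by linarith)
  obtain ⟨w, hw, hl⟩ := happ (‖x‖ / 2) (2 * ‖x‖) (half_pos hxp) η hη
  refine ⟨w, hw, fun y h1 h2 => (hl y h1.le h2.le).trans ?_⟩
  have : ‖z‖ ^ (A + 2 + B) * u z ^ q ≤ ‖y‖ ^ (A + 2 + B) * u y ^ q :=
    hzmin ⟨mem_closedBall_zero_iff.2 h2.le, h1.le⟩
  linarith

end

end Vale.Agent.P100.Linear
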