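import Vale.Agent.P100.Linear.Phi

/-!
Moving spheres for the pair `(|x| ^ (-A - 2) u, Φ)` when `p = 1`, and the resulting nonexistence.
-/

open Set Filter Metric Laplacian InnerProductSpace Real
open scoped Topology RealInnerProductSpace

namespace Vale.Agent.P100.Linear

open Sphere

noncomputable section

variable {n : ℕ} {A B q : ℝ} {u v : EuclideanSpace ℝ (Fin n) → ℝ}

/-- The weighted first unknown. -/
def Om (A : ℝ) (u : EuclideanSpace ℝ (Fin n) → ℝ) (x : EuclideanSpace ℝ (Fin n)) : ℝ :=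
  (‖x‖ ^ 2) ^ (-(A + 2) / 2) * u x

theorem Om_eq (x : EuclideanSpace ℝ (Fin n)) : Om A u x = ‖x‖ ^ (-(A + 2)) * u x := by
  rw [Om, pow_two_rpow (norm_nonneg x)]

theorem Om_pos (H : Sol n A B q u v) {x : EuclideanSpace ℝ (Fin n)} (hx : x ≠ 0) :
    0 < Om A u x := mul_pos (rpow_pos_of_pos (pow_pos (norm_pos_iff.2 hx) 2) _) (H.up x)

theorem laplacian_Om (H : Sol n A B q u v) {x : EuclideanSpace ℝ (Fin n)} (hx : x ≠ 0) :
    ContDiffAt ℝ 2 (Om A u) x ∧ Δ (Om A u) x = -(‖x‖ ^ (-4 - A) * Phi A u v x) := by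
  set r := ‖x‖ with hr
  have hr0 : 0 < r := norm_pos_iff.2 hx
  have hs : 0 < r ^ 2 := pow_pos hr0 2
  set m := -(A + 2) / 2 with hm
  obtain ⟨hc, hl⟩ := laplacian_radial_mul (φ := fun s => s ^ m)
    (d1 := fun s => m * s ^ (m - 1)) (d2 := m * (m - 1) * (r ^ 2) ^ (m - 1 - 1))
    (Real.contDiffAt_rpow_const_of_ne hs.ne')
    (eventually_of_mem (Ioi_mem_nhds hs) fun s (hs : 0 < s) =>
      Real.hasDerivAt_rpow_const (Or.inl hs.ne'))
    (((Real.hasDerivAt_rpow_const (Or.inl hs.ne')).const_mul m).congr_deriv (by ring))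
    (H.u2 x hx)
  refine ⟨hc, ?_⟩
  unfold Om
  rw [← hm, hl, H.eu x hx]
  have e0 : (r ^ 2) ^ m = r ^ (-(A + 2)) := by rw [hm, pow_two_rpow hr0.le]
  have e1 : (r ^ 2) ^ (m - 1) = r ^ (-4 - A) := by
    rw [rpow_sub_one hs.ne', e0, ← rpow_natCast r 2, ← rpow_sub hr0]; push_cast; ring_nf
  have e2 : (r ^ 2) ^ (m - 1 - 1) * r ^ 2 = r ^ (-4 - A) := by
    rw [rpow_sub_one hs.ne' (m - 1), e1]; field_simp
  have e3 : r ^ (-(A + 2)) * r ^ A = r ^ (-4 - A) * r ^ (A + 2) := by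
    rw [← rpow_add hr0, ← rpow_add hr0]; congr 1; ring
  simp only [e0, e1, Phi, rayD, gam, ← hr]
  rw [show 4 * (m * (m - 1) * (r ^ 2) ^ (m - 1 - 1)) * r ^ 2 =
    4 * (m * (m - 1)) * ((r ^ 2) ^ (m - 1 - 1) * r ^ 2) by ring, e2,
    show r ^ (-(A + 2)) * -(r ^ A * v x) = -(r ^ (-(A + 2)) * r ^ A * v x) by ring, e3, hm]
  ring

/-- The difference of the weighted unknown and its reflection. -/
theorem diff_eq {l : ℝ} (hl : 0 < l) {x : EuclideanSpace ℝ (Fin n)} (hx : x ≠ 0) :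
    Om A u x - l ^ (-(A + 2)) * refl (((n : ℝ) - 2) / 2) u l x =
      ‖x‖ ^ (-(A + 2)) * (u x - refl (gam n A) u l x) := by
  have hr := norm_pos_iff.2 hx
  rw [Om_eq, Sphere.refl, Sphere.refl, mul_sub, ← mul_assoc (l ^ (-(A + 2))), ← mul_assoc (‖x‖ ^ (-(A + 2)))]
  congr 2
  have e : 2 * (((n : ℝ) - 2) / 2) = 2 * gam n A + (A + 2) := by rw [gam]; ring
  rw [e, rpow_add (div_pos hl hr), div_rpow hl.le hr.le (A + 2), rpow_neg hl.le, rpow_neg hr.le]
  have := rpow_pos_of_pos hl (A + 2)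
  have := rpow_pos_of_pos hr (A + 2)
  field_simp

theorem laplacian_diff (H : Sol n A B q u v) {l : ℝ} (hl : 0 < l)
    {x : EuclideanSpace ℝ (Fin n)} (hx : x ≠ 0) :
    ContDiffAt ℝ 2 (fun z => Om A u z - l ^ (-(A + 2)) * refl (((n : ℝ) - 2) / 2) u l z) x ∧
      Δ (fun z => Om A u z - l ^ (-(A + 2)) * refl (((n : ℝ) - 2) / 2) u l z) x =
        -(‖x‖ ^ (-4 - A) *
          (Phi A u v x - l ^ (A + 2) * refl (((n : ℝ) - 2) / 2) v l x)) := by
  set a := ((n : ℝ) - 2) / 2 with ha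
  have hy := invp_ne hl hx
  obtain ⟨ho, hol⟩ := laplacian_Om H hx
  obtain ⟨hk, hkl⟩ := laplacian_refl (a := a) hl hx (H.u2 _ hy)
  have hk' : ContDiffAt ℝ 2 (fun z => l ^ (-(A + 2)) * refl a u l z) x := contDiffAt_const.mul hk
  refine ⟨ho.sub hk', ?_⟩
  rw [show (fun z => Om A u z - l ^ (-(A + 2)) * refl a u l z) =
    Om A u - fun z => l ^ (-(A + 2)) * refl a u l z from rfl, ho.laplacian_sub hk',
    show (fun z => l ^ (-(A + 2)) * refl a u l z) = l ^ (-(A + 2)) • refl a u l from rfl,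
    laplacian_smul _ hk, hol, hkl, smul_eq_mul, H.eu _ hy, norm_invp hl hx,
    show 2 * a + 2 - (n : ℝ) = 0 by rw [ha]; ring]
  simp only [Sphere.refl, mul_zero, zero_mul, zero_add]
  set r := ‖x‖
  have hr : 0 < r := norm_pos_iff.2 hx
  have e : l ^ (-(A + 2)) * (l ^ 2 / r ^ 2) ^ 2 * (l ^ 2 / r) ^ A =
      r ^ (-4 - A) * l ^ (A + 2) := by
    rw [div_rpow (by positivity) hr.le, ← rpow_natCast l 2, ← rpow_mul hl.le, rpow_neg hl.le,
      show (-4 : ℝ) - A = -((4 : ℕ) : ℝ) - A by norm_num, rpow_sub hr, rpow_neg hr.le,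
      rpow_natCast]
    rw [show ((2 : ℕ) : ℝ) * A = A + A by push_cast; ring, rpow_add hl A A,
      rpow_add hl A 2, rpow_two]
    norm_cast
    have := rpow_pos_of_pos hl A
    have := rpow_pos_of_pos hr A
    field_simp
  generalize (l / r) ^ (2 * a) = ρ
  linear_combination ρ * v (invp l x) * e

/-- Superharmonicity of the second difference in the limiting sense. -/
theorem approx_diff (H : Sol n A B q u v) {l : ℝ} (hl : 0 < l) {T : ℝ}
    (hA : Above (gam n A) u l) {η : ℝ} (hη : 0 < η) :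
    ∃ w : EuclideanSpace ℝ (Fin n) → ℝ,
      (∀ x, l ≤ ‖x‖ → ‖x‖ ≤ T → ContDiffAt ℝ 2 w x ∧
        |w x - (Phi A u v x - l ^ (A + 2) * refl (((n : ℝ) - 2) / 2) v l x)| ≤ η) ∧
      ∀ x, l ≤ ‖x‖ → ‖x‖ ≤ T → Δ w x ≤ -(‖x‖ ^ (A + 2 + B) * u x ^ q *
        (1 - (l / ‖x‖) ^ ((n : ℝ) + 4 + A + 2 * B - 2 * gam n A * q))) + η := by
  set a := ((n : ℝ) - 2) / 2 with ha
  set S : Set (EuclideanSpace ℝ (Fin n)) := closedBall 0 T ∩ {y | l ≤ ‖y‖}
  have hS : ∀ y, l ≤ ‖y‖ → ‖y‖ ≤ T → y ∈ S := fun y h h' => ⟨mem_closedBall_zero_iff.2 h', h⟩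
  have hS0 : ∀ y ∈ S, y ≠ 0 := fun y hy => norm_pos_iff.1 (hl.trans_le hy.2)
  obtain ⟨w, hw, hwS⟩ := approx H ((isCompact_closedBall 0 T).inter_right
    (isClosed_le continuous_const continuous_norm)) hS0 hη
  have hk : ∀ x, x ≠ 0 → ContDiffAt ℝ 2 (fun z => l ^ (A + 2) * refl a v l z) x := fun x hx =>
    contDiffAt_const.mul (laplacian_refl (a := a) hl hx (H.v2 _ (invp_ne hl hx))).1
  refine ⟨fun z => w z - l ^ (A + 2) * refl a v l z, fun x h h' => ?_, fun x h h' => ?_⟩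
  · have hx := hS0 x (hS x h h')
    refine ⟨(hw x hx).sub (hk x hx), ?_⟩
    rw [sub_sub_sub_cancel_right]
    exact (hwS x (hS x h h')).1
  have hx := hS0 x (hS x h h')
  set r := ‖x‖ with hr'
  have hr : 0 < r := norm_pos_iff.2 hx
  have hy := invp_ne hl hx
  obtain ⟨hrc, hrl⟩ := laplacian_refl (a := a) hl hx (H.v2 _ hy)
  rw [show (fun z => w z - l ^ (A + 2) * refl a v l z) =
    w - fun z => l ^ (A + 2) * refl a v l z from rfl, (hw x hx).laplacian_sub (hk x hx),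
    show (fun z => l ^ (A + 2) * refl a v l z) = l ^ (A + 2) • refl a v l from rfl,
    laplacian_smul _ hrc, hrl, smul_eq_mul, H.ev _ hy, norm_invp hl hx,
    show 2 * a + 2 - (n : ℝ) = 0 by rw [ha]; ring, ← hr']
  simp only [mul_zero, zero_mul, zero_add]
  have hup := H.up x
  have huy := H.up (invp l x)
  set ρ := l / r with hρ
  have hρ0 : 0 < ρ := div_pos hl hr
  set e := (n : ℝ) + 4 + A + 2 * B - 2 * gam n A * q with he
  have key : l ^ (A + 2) * (ρ ^ (2 * a) * (l ^ 2 / r ^ 2) ^ 2 * ((l ^ 2 / r) ^ B *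
      u (invp l x) ^ q)) = r ^ (A + 2 + B) * ρ ^ e * refl (gam n A) u l x ^ q := by
    rw [Sphere.refl, ← hr', ← hρ, mul_rpow (rpow_nonneg hρ0.le _) huy.le, ← rpow_mul hρ0.le,
      show l ^ 2 / r ^ 2 = ρ ^ (2 : ℝ) by rw [rpow_two, hρ, div_pow],
      show l ^ 2 / r = ρ ^ (2 : ℝ) * r by rw [rpow_two, hρ]; field_simp,
      mul_rpow (rpow_nonneg hρ0.le _) hr.le, ← rpow_mul hρ0.le, ← rpow_natCast (ρ ^ (2 : ℝ)) 2,
      ← rpow_mul hρ0.le]
    rw [show l ^ (A + 2) = ρ ^ (A + 2) * r ^ (A + 2) by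
        rw [← mul_rpow hρ0.le hr.le, hρ, div_mul_cancel₀ _ hr.ne'],
      rpow_add hr (A + 2) B,
      show r ^ (A + 2) * r ^ B * ρ ^ e * (ρ ^ (2 * gam n A * q) * u (invp l x) ^ q) =
        r ^ (A + 2) * r ^ B * (ρ ^ e * ρ ^ (2 * gam n A * q)) * u (invp l x) ^ q by ring,
      ← rpow_add hρ0 e (2 * gam n A * q),
      show e + 2 * gam n A * q = A + 2 + 2 * a + 2 * ((2 : ℕ) : ℝ) + 2 * B by
        rw [he, ha]; push_cast; ring,
      rpow_add hρ0 (A + 2 + 2 * a + 2 * ((2 : ℕ) : ℝ)) (2 * B),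
      rpow_add hρ0 (A + 2 + 2 * a) (2 * ((2 : ℕ) : ℝ)), rpow_add hρ0 (A + 2) (2 * a)]
    ring
  have h1 : refl (gam n A) u l x ^ q ≤ u x ^ q :=
    rpow_le_rpow (mul_pos (rpow_pos_of_pos hρ0 _) huy).le (hA x h) (by linarith [H.hq])
  have h2 := mul_le_mul_of_nonneg_left h1
    (show 0 ≤ r ^ (A + 2 + B) * ρ ^ e by positivity)
  have h3 := (hwS x (hS x h h')).2
  rw [← key] at h2
  linarith

/-- The boundary values of the second difference are nonnegative. -/
theorem boundary_nonneg (hu2 : ∀ x, x ≠ 0 → ContDiffAt ℝ 2 u x) {a L : ℝ} (hL : 0 < L)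
    (hP : ∀ l, 0 < l → l < L → Above a u l) {x : EuclideanSpace ℝ (Fin n)} (hx : ‖x‖ = L) :
    0 ≤ rayD a u x := by
  have hx0 : x ≠ 0 := norm_pos_iff.1 (hx ▸ hL)
  have hc : ContinuousAt (fun t : ℝ => rayD a u (t • x)) 1 :=
    ContinuousAt.comp (f := fun t : ℝ => t • x) (continuousAt_rayD a hu2 (by simpa using hx0))
      (by fun_prop)
  have h : Tendsto (fun t : ℝ => rayD a u (t • x)) (𝓝[<] 1) (𝓝 (rayD a u x)) := by
    simpa using hc.tendsto.mono_left (nhdsWithin_le_nhds (s := Iio 1))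
  refine ge_of_tendsto h ?_
  filter_upwards [Ioo_mem_nhdsLT one_pos] with t ht
  refine rayD_nonneg hu2 hP (smul_ne_zero ht.1.ne' hx0) ?_
  rw [norm_smul, hx, Real.norm_eq_abs, abs_of_pos ht.1]
  exact mul_lt_of_lt_one_left hL ht.2

/-- The second difference is positive outside the sphere. -/
theorem second_pos (H : Sol n A B q u v) {L : ℝ} (hL : 0 < L)
    (hP : ∀ l, 0 < l → l < L → Above (gam n A) u l) {x : EuclideanSpace ℝ (Fin n)}
    (hx : L < ‖x‖) : 0 < Phi A u v x - L ^ (A + 2) * refl (((n : ℝ) - 2) / 2) v L x := by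
  set a := ((n : ℝ) - 2) / 2 with ha
  set e := (n : ℝ) + 4 + A + 2 * B - 2 * gam n A * q with he
  set φ : EuclideanSpace ℝ (Fin n) → ℝ := fun z => Phi A u v z - L ^ (A + 2) * refl a v L z
  have hn : 0 < n := by linarith [H.hn]
  have hn3 : (3 : ℝ) ≤ n := by exact_mod_cast H.hn
  have he0 : 0 < e := by
    have := H.sub
    rw [he, gam] at *
    linarith
  have hLA := closed_step hL H.cu hP
  have hc : 0 < L ^ (A + 2) := rpow_pos_of_pos hL _
  have hw0 : ∀ y : EuclideanSpace ℝ (Fin n), L ≤ ‖y‖ →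
      0 ≤ ‖y‖ ^ (A + 2 + B) * u y ^ q * (1 - (L / ‖y‖) ^ e) := fun y h =>
    mul_nonneg (mul_nonneg (rpow_nonneg (norm_nonneg y) _) (rpow_nonneg (H.up y).le _))
      (sub_nonneg.2 (rpow_le_one (by positivity) ((div_le_one (hL.trans_le h)).2 h) he0.le))
  have hnn : ∀ z, L ≤ ‖z‖ → 0 ≤ φ z := by
    intro z hz
    refine le_of_forall_pos_le_add fun δ hδ => ?_
    obtain ⟨R, hR⟩ := tendsto_refl (a := a) H.hn (by rw [ha]; linarith) H.cv hL
      (δ / L ^ (A + 2)) (by positivity)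
    have h := annulus_lim (w := φ) (φ := fun _ => -δ) (d1 := fun _ => 0) (d2 := fun _ => 0)
      (ε := L) (ρ := max R ‖z‖) hn hL (fun s _ => hasDerivAt_const s _)
      (fun s _ => hasDerivAt_const s _) (fun η hη => ?_) (fun y hy => ?_) (fun y hy => ?_)
      hz (le_max_right _ _)
    · linarith
    · obtain ⟨w, hw, hl⟩ := approx_diff H hL (T := max R ‖z‖) hLA hη
      refine ⟨w, hw, fun y h1 h2 => (hl y h1.le h2.le).trans ?_⟩
      have := hw0 y h1.le
      simp only [mul_zero, zero_mul, add_zero, zero_add]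
      linarith
    · simp only [φ, Phi, refl_self hL hy, hy]
      have := mul_nonneg (show 0 ≤ 2 * (A + 2) by linarith [H.hA])
        (boundary_nonneg H.u2 hL hP hy)
      linarith
    · have h1 := hR y (hy.symm ▸ le_max_left _ _)
      rw [le_div_iff₀' hc] at h1
      have hy' : L ≤ ‖y‖ := hy.symm ▸ hz.trans (le_max_right _ _)
      have h2 := phi_pos H (norm_pos_iff.1 (hL.trans_le hy'))
      simp only [φ]
      linarith
  set ε := (L + ‖x‖) / 2 with hε
  have hεx : ε < ‖x‖ := by rw [hε]; linarith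
  have hεL : L < ε := by rw [hε]; linarith
  set S : Set (EuclideanSpace ℝ (Fin n)) := closedBall 0 (2 * ‖x‖) ∩ {y | ε ≤ ‖y‖}
  have hSp : ∀ y ∈ S, 0 < ‖y‖ := fun y hy => (hL.trans hεL).trans_le hy.2
  obtain ⟨z, hz, hzmin⟩ := ((isCompact_closedBall (0 : EuclideanSpace ℝ (Fin n))
    (2 * ‖x‖)).inter_right (isClosed_le continuous_const continuous_norm)).exists_isMinOn (s := S)
    ⟨x, mem_closedBall_zero_iff.2 (by linarith [norm_nonneg x]), hεx.le⟩
    (f := fun y => ‖y‖ ^ (A + 2 + B) * u y ^ q * (1 - (L / ‖y‖) ^ e)) fun y hy =>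
      (((continuous_norm.continuousAt.rpow_const (Or.inl (hSp y hy).ne')).mul
        (H.cu.continuousAt.rpow_const (Or.inl (H.up y).ne'))).mul (continuousAt_const.sub
          ((continuousAt_const.div continuous_norm.continuousAt (hSp y hy).ne').rpow_const
            (Or.inr he0.le)))).continuousWithinAt
  have hm : 0 < ‖z‖ ^ (A + 2 + B) * u z ^ q * (1 - (L / ‖z‖) ^ e) :=
    mul_pos (mul_pos (rpow_pos_of_pos (hSp z hz) _) (rpow_pos_of_pos (H.up z) q))
      (sub_pos.2 (rpow_lt_one (div_pos hL (hSp z hz)).le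
        ((div_lt_one (hSp z hz)).2 (hεL.trans_le hz.2)) he0))
  refine strict_pos (w := φ) (ε := ε) (ρ := 2 * ‖x‖) hn (hL.trans hεL) hm (fun η hη => ?_)
    (fun y h1 _ => hnn y (hεL.le.trans h1)) hεx (by linarith)
  obtain ⟨w, hw, hl⟩ := approx_diff H hL (T := 2 * ‖x‖) hLA hη
  refine ⟨w, fun y h1 h2 => hw y (hεL.le.trans h1) h2, fun y h1 h2 =>
    (hl y (hεL.le.trans h1.le) h2.le).trans ?_⟩
  have : ‖z‖ ^ (A + 2 + B) * u z ^ q * (1 - (L / ‖z‖) ^ e) ≤
      ‖y‖ ^ (A + 2 + B) * u y ^ q * (1 - (L / ‖y‖) ^ e) :=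
    hzmin ⟨mem_closedBall_zero_iff.2 h2.le, h1.le⟩
  linarith

/-- At a radius up to which the comparison holds, it is strict with uniform margins. -/
theorem strict_linear (H : Sol n A B q u v) {L : ℝ} (hL : 0 < L)
    (hP : ∀ l, 0 < l → l < L → Above (gam n A) u l) :
    (∀ x, ‖x‖ = L → 0 < rayD (gam n A) u x) ∧
      ∀ r, L < r → ∃ c, 0 < c ∧ ∀ x, r ≤ ‖x‖ → c * (r / ‖x‖) ^ ((n : ℝ) - 2) ≤
        Om A u x - L ^ (-(A + 2)) * refl (((n : ℝ) - 2) / 2) u L x := by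
  set N : ℝ := (n : ℝ) - 2 with hN
  have hn := H.hn
  have hn3 : (3 : ℝ) ≤ n := by exact_mod_cast hn
  set w : EuclideanSpace ℝ (Fin n) → ℝ := fun z =>
    Om A u z - L ^ (-(A + 2)) * refl (N / 2) u L z with hw
  have hw2 : ∀ z : EuclideanSpace ℝ (Fin n), L ≤ ‖z‖ → ContDiffAt ℝ 2 w z := fun z hz =>
    (laplacian_diff H hL (norm_pos_iff.1 (hL.trans_le hz))).1
  have hlap : ∀ z : EuclideanSpace ℝ (Fin n), L < ‖z‖ → Δ w z < 0 := fun z hz => by
    rw [(laplacian_diff H hL (norm_pos_iff.1 (hL.trans hz))).2]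
    exact neg_neg_of_pos (mul_pos (rpow_pos_of_pos (hL.trans hz) _) (second_pos H hL hP hz))
  have hinf : ∀ δ : ℝ, 0 < δ → ∃ R, ∀ z, R ≤ ‖z‖ → -δ ≤ w z := fun δ hδ => by
    obtain ⟨R, hR⟩ := tendsto_refl (a := N / 2) hn (by rw [hN]; linarith) H.cu hL
      (δ * L ^ (A + 2)) (mul_pos hδ (rpow_pos_of_pos hL _))
    refine ⟨max R L, fun z hz => ?_⟩
    have h1 := (Om_pos H (norm_pos_iff.1 (hL.trans_le ((le_max_right _ _).trans hz))))
    have h2 := mul_le_mul_of_nonneg_left (hR z ((le_max_left _ _).trans hz))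
      (rpow_nonneg hL.le (-(A + 2)))
    rw [mul_left_comm, ← rpow_add hL, neg_add_cancel, rpow_zero, mul_one] at h2
    simp only [hw]
    linarith
  have hbdy : ∀ y, ‖y‖ = L → w y = 0 := fun y hy => by
    simp only [hw, Om_eq, refl_self hL hy, hy, sub_self]
  have hge : ∀ z : EuclideanSpace ℝ (Fin n), L ≤ ‖z‖ → 0 ≤ w z := fun z hz => by
    simpa using exterior_ge (c := 0) hn hL hw2 hlap (fun y hy => (hbdy y hy).ge) hinf hz
  have hpos : ∀ z : EuclideanSpace ℝ (Fin n), L < ‖z‖ → 0 < w z := by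
    intro z hz
    refine lt_of_le_of_ne (hge z hz.le) fun h0 => ?_
    have hloc : IsLocalMin (fun y => w y - (0 : ℝ)) z := by
      filter_upwards [(isOpen_Ioi.preimage continuous_norm).mem_nhds (show z ∈ norm ⁻¹' Ioi L
        from hz)] with y hy
      simp only [sub_zero, ← h0]
      exact hge y (le_of_lt hy)
    have := laplacian_ge_radial (φ := fun _ => 0) (d1 := fun _ => 0) (d2 := 0) (hw2 z hz.le)
      (Eventually.of_forall fun s => hasDerivAt_const s 0) (hasDerivAt_const _ 0) hloc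
    have := hlap z hz
    simp at *
    linarith
  have hmin : ∀ r, L < r → ∃ c, 0 < c ∧ ∀ z : EuclideanSpace ℝ (Fin n), ‖z‖ = r → c ≤ w z := by
    intro r hr
    have : Nonempty (Fin n) := ⟨⟨0, by omega⟩⟩
    obtain ⟨z, hz, hzm⟩ := (isCompact_sphere (0 : EuclideanSpace ℝ (Fin n)) r).exists_isMinOn
      (NormedSpace.sphere_nonempty.2 (hL.trans hr).le) (fun y hy =>
        (hw2 y (by rw [mem_sphere_zero_iff_norm] at hy; linarith)).continuousAt.continuousWithinAt)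
    rw [mem_sphere_zero_iff_norm] at hz
    exact ⟨w z, hpos z (hz ▸ hr), fun y hy => hzm (by rwa [mem_sphere_zero_iff_norm])⟩
  refine ⟨fun z hz => ?_, fun r hr => ?_⟩
  · obtain ⟨c, hc, hcw⟩ := hmin (2 * L) (by linarith)
    obtain ⟨h1, h2, h3⟩ := power_data (n := n) N c (-(c * L ^ N))
    have hbar : ∀ y : EuclideanSpace ℝ (Fin n), L ≤ ‖y‖ → ‖y‖ ≤ 2 * L →
        c + -(c * L ^ N) * (‖y‖ ^ 2) ^ (-N / 2) ≤ w y := by
      intro y hy hy'
      refine annulus_ge hL (fun y hy _ => hw2 y hy) h1 h2 (fun y hy _ => ?_) (fun y hy => ?_)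
        (fun y hy => ?_) hy hy'
      · rw [h3 _ (hL.trans hy), show N + 2 - (n : ℝ) = 0 by rw [hN]; ring, mul_zero, zero_mul]
        exact hlap y hy
      · rw [pow_two_rpow hL.le, neg_mul, mul_assoc, ← rpow_add hL, add_neg_cancel, rpow_zero,
          hbdy y hy]
        simp
      · rw [pow_two_rpow (by positivity)]
        have : 0 ≤ c * L ^ N * (2 * L) ^ (-N) := by positivity
        linarith [hcw y hy]
    set θ := L⁻¹ • z with hθd
    have hθ : ‖θ‖ = 1 := by rw [hθd, norm_smul, hz, norm_inv, Real.norm_eq_abs, abs_of_pos hL,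
      inv_mul_cancel₀ hL.ne']
    have hθz : L • θ = z := by rw [hθd, smul_smul, mul_inv_cancel₀ hL.ne', one_smul]
    have hne : z ≠ 0 := norm_pos_iff.1 (hz ▸ hL)
    set k := L ^ (-(A + 2)) with hk
    set f : ℝ → ℝ := fun t => t ^ (-(A + 2)) * u (t • θ) -
      k * ((L / t) ^ N * u ((L ^ 2 / t) • θ)) - (c - c * L ^ N * t ^ (-N)) with hf
    have hfd : HasDerivAt f (2 * k / L * rayD (gam n A) u z - c * N / L) L := by
      have hud : HasFDerivAt u (fderiv ℝ u z) z :=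
        ((H.u2 z hne).differentiableAt (by norm_num)).hasFDerivAt
      have g1 : HasDerivAt (fun t : ℝ => u (t • θ)) (fderiv ℝ u z θ) L :=
        hud.comp_hasDerivAt_of_eq L (by simpa using (hasDerivAt_id L).smul_const θ) hθz.symm
      have g2 : HasDerivAt (fun t : ℝ => L ^ 2 / t) (-1) L :=
        ((hasDerivAt_const L (L ^ 2)).div (hasDerivAt_id L) hL.ne').congr_deriv (by
          simp only [id_eq]; field_simp; ring)
      have g3 : HasDerivAt (fun t : ℝ => u ((L ^ 2 / t) • θ)) (fderiv ℝ u z ((-1 : ℝ) • θ)) L :=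
        hud.comp_hasDerivAt_of_eq L (g2.smul_const θ) (by
          rw [show L ^ 2 / L = L by field_simp, hθz])
      have g4 : HasDerivAt (fun t : ℝ => (L / t) ^ N) (-N / L) L :=
        (((hasDerivAt_const L L).div (hasDerivAt_id L) hL.ne').rpow_const
          (Or.inl (by simp [hL.ne']))).congr_deriv (by
            simp only [id_eq, Pi.div_apply, div_self hL.ne', one_rpow]; field_simp; ring)
      have g5 : HasDerivAt (fun t : ℝ => c - c * L ^ N * t ^ (-N)) (c * N / L) L :=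
        ((hasDerivAt_pw (c * L ^ N) (-N) L hL).const_sub c).congr_deriv (by
          rw [rpow_sub_one hL.ne', rpow_neg hL.le]; field_simp)
      have g6 : HasDerivAt (fun t : ℝ => t ^ (-(A + 2))) (-(A + 2) * k / L) L :=
        (Real.hasDerivAt_rpow_const (Or.inl hL.ne')).congr_deriv (by
          rw [rpow_sub_one hL.ne', hk]; ring)
      refine (((g6.mul g1).sub ((g4.mul g3).const_mul k)).sub g5).congr_deriv ?_
      have hDz : fderiv ℝ u z z = L * fderiv ℝ u z θ := by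
        conv_lhs => arg 2; rw [← hθz]
        rw [map_smul, smul_eq_mul]
      simp only [rayD, hDz, map_smul, smul_eq_mul, div_self hL.ne', one_rpow,
        show L ^ 2 / L = L by field_simp, hθz, ← hk, gam, hN]
      field_simp
      ring
    have hf0 : f L = 0 := by
      simp only [hf, div_self hL.ne', one_rpow, show L ^ 2 / L = L by field_simp, ← hk,
        mul_assoc, ← rpow_add hL, add_neg_cancel, rpow_zero]
      ring
    have hev : ∀ᶠ t in 𝓝[>] L, 0 ≤ slope f L t := by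
      filter_upwards [Ioo_mem_nhdsGT (show L < 2 * L by linarith)] with t ht
      have htp : 0 < t := hL.trans ht.1
      have hn : ‖t • θ‖ = t := by rw [norm_smul, hθ, mul_one, Real.norm_eq_abs, abs_of_pos htp]
      have := hbar (t • θ) (by rw [hn]; exact ht.1.le) (by rw [hn]; exact ht.2.le)
      rw [hn, pow_two_rpow htp.le] at this
      simp only [hw, Om_eq, Sphere.refl, hn, invp_smul hθ htp,
        show 2 * (N / 2) = N by ring] at this
      rw [slope_def_field, hf0, sub_zero]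
      refine div_nonneg ?_ (by linarith [ht.1])
      simp only [hf]
      linarith
    have hnn : 0 ≤ 2 * k / L * rayD (gam n A) u z - c * N / L :=
      ge_of_tendsto ((hasDerivAt_iff_tendsto_slope.1 hfd).mono_left
        (nhdsWithin_mono _ fun t (ht : t ∈ Ioi L) => ne_of_gt ht)) hev
    have : 0 < c * N / L := div_pos (mul_pos hc (by rw [hN]; linarith)) hL
    exact pos_of_mul_pos_right (show 0 < 2 * k / L * rayD (gam n A) u z by linarith)
      (by positivity)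
  · obtain ⟨c, hc, hcw⟩ := hmin r hr
    exact ⟨c, hc, fun z hz => exterior_ge hn (hL.trans hr) (fun y hy => hw2 y (hr.le.trans hy))
      (fun y hy => hlap y (hr.trans hy)) hcw hinf hz⟩

/-- The margins at `L` persist for slightly larger radii. -/
theorem open_linear (H : Sol n A B q u v) {L : ℝ} (hL : 0 < L)
    (hP : ∀ l, 0 < l → l < L → Above (gam n A) u l) :
    ∃ δ : ℝ, 0 < δ ∧ ∀ l, L ≤ l → l < L + δ → Above (gam n A) u l := by
  obtain ⟨hU, hfar⟩ := strict_linear H hL hP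
  set N : ℝ := (n : ℝ) - 2 with hN
  have hn3 : (3 : ℝ) ≤ n := by exact_mod_cast H.hn
  set g := gam n A with hg
  -- a band where the radial derivative stays positive
  obtain ⟨δ₁, hδ₁, hband⟩ : ∃ δ₁ : ℝ, 0 < δ₁ ∧
      ∀ y : EuclideanSpace ℝ (Fin n), y ≠ 0 → ‖y‖ < L + δ₁ → 0 ≤ rayD g u y := by
    have hK := isCompact_sphere (0 : EuclideanSpace ℝ (Fin n)) 1
    have hev : ∀ x ∈ sphere (0 : EuclideanSpace ℝ (Fin n)) 1,
        ∀ᶠ z : ℝ × EuclideanSpace ℝ (Fin n) in 𝓝 (L, x), 0 < rayD g u (z.1 • z.2) := by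
      intro x hx
      rw [mem_sphere_zero_iff_norm] at hx
      have hLx : ‖L • x‖ = L := by rw [norm_smul, hx, mul_one, Real.norm_eq_abs, abs_of_pos hL]
      have hc : ContinuousAt (fun z : ℝ × EuclideanSpace ℝ (Fin n) => rayD g u (z.1 • z.2))
          (L, x) :=
        ContinuousAt.comp (f := fun z : ℝ × EuclideanSpace ℝ (Fin n) => z.1 • z.2)
          (continuousAt_rayD g H.u2 (norm_pos_iff.1 (hLx.symm ▸ hL))) (by fun_prop)
      exact hc.eventually (eventually_gt_nhds (hU _ hLx))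
    obtain ⟨η, hη, hball⟩ :=
      Metric.eventually_nhds_iff.1 (hK.eventually_forall_of_forall_eventually
        (P := fun t y => 0 < rayD g u (t • y)) hev)
    refine ⟨η, hη, fun y hy hyL => ?_⟩
    rcases lt_or_ge ‖y‖ L with h | h
    · exact rayD_nonneg H.u2 hP hy h
    · have hp := norm_pos_iff.2 hy
      have := hball (y := ‖y‖) (by rw [Real.dist_eq, abs_lt]; constructor <;> linarith)
        (‖y‖⁻¹ • y) (by rw [mem_sphere_zero_iff_norm]; exact norm_smul_inv_norm hy)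
      rw [smul_smul, mul_inv_cancel₀ hp.ne', one_smul] at this
      exact this.le
  set ρ := L + δ₁ / 2 with hρ
  have hρ0 : 0 < ρ := by linarith
  obtain ⟨c, hc, hfar⟩ := hfar ρ (by linarith)
  -- the far part, in inverted coordinates
  set F : ℝ × EuclideanSpace ℝ (Fin n) → ℝ :=
    fun z => |z.1| ^ (2 * g) * u (z.1 ^ 2 • z.2) with hF
  have hFc : Continuous F :=
    (Continuous.comp (Real.continuous_rpow_const (show (0 : ℝ) ≤ 2 * g by linarith [H.hg]))
      continuous_fst.abs).mul (H.cu.comp (by fun_prop))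
  have hev : ∀ z ∈ closedBall (0 : EuclideanSpace ℝ (Fin n)) ρ⁻¹,
      ∀ᶠ p : ℝ × EuclideanSpace ℝ (Fin n) in 𝓝 (L, z), F p < F (L, p.2) + c * ρ ^ N := by
    intro z _
    have hc' : Continuous fun p : ℝ × EuclideanSpace ℝ (Fin n) => F (L, p.2) + c * ρ ^ N :=
      (hFc.comp (by fun_prop)).add continuous_const
    exact (hFc.continuousAt).eventually_lt hc'.continuousAt (by
      show F (L, z) < F (L, z) + c * ρ ^ N
      have : 0 < c * ρ ^ N := by positivity
      linarith)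
  obtain ⟨η, hη, hball⟩ := Metric.eventually_nhds_iff.1
    ((isCompact_closedBall _ _).eventually_forall_of_forall_eventually
      (P := fun l y => F (l, y) < F (L, y) + c * ρ ^ N) hev)
  refine ⟨min η (δ₁ / 2), lt_min hη (half_pos hδ₁), fun l hLl hlδ x hx => ?_⟩
  have hl : 0 < l := hL.trans_le hLl
  have hl1 : l < L + η := lt_of_lt_of_le hlδ (by linarith [min_le_left η (δ₁ / 2)])
  have hl2 : l < L + δ₁ := lt_of_lt_of_le hlδ (by linarith [min_le_right η (δ₁ / 2)])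
  rcases lt_or_ge ‖x‖ ρ with h | h
  · exact above_of_ray H.u2 hband hl hx (by linarith)
  have hxp : 0 < ‖x‖ := hρ0.trans_le h
  set z := (‖x‖ ^ 2)⁻¹ • x with hz
  have hzn : ‖z‖ = ‖x‖⁻¹ := by
    rw [hz, norm_smul, norm_inv, norm_pow, norm_norm]; field_simp
  have := hball (y := l) (by rw [Real.dist_eq, abs_lt]; constructor <;> linarith) z
    (by rw [mem_closedBall_zero_iff, hzn]; exact inv_anti₀ hρ0 h)
  have hFe : ∀ m : ℝ, 0 < m →
      m ^ (-(A + 2)) * refl (N / 2) u m x = F (m, z) / ‖x‖ ^ N := fun m hm => by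
    simp only [Sphere.refl, hF, invp, abs_of_pos hm, div_eq_mul_inv]
    rw [hz, smul_smul, ← mul_assoc, mul_rpow hm.le (inv_nonneg.2 hxp.le), inv_rpow hxp.le,
      ← mul_assoc, ← rpow_add hm]
    rw [show 2 * (N * 2⁻¹) = N by ring, show -(A + 2) + N = 2 * g by rw [hg, gam, hN]; ring]
    ring
  have h2 := hfar x h
  rw [hFe L hL, div_rpow hρ0.le hxp.le, ← mul_div_assoc] at h2
  have h3 : (F (l, z)) / ‖x‖ ^ N ≤ (F (L, z) + c * ρ ^ N) / ‖x‖ ^ N :=
    div_le_div_of_nonneg_right this.le (rpow_nonneg hxp.le N)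
  rw [add_div] at h3
  have h4 : 0 ≤ ‖x‖ ^ (-(A + 2)) * (u x - refl g u l x) := by
    rw [hg, ← diff_eq hl (norm_pos_iff.1 hxp), ← hN, hFe l hl]
    linarith
  exact sub_nonneg.1 (nonneg_of_mul_nonneg_right h4 (rpow_pos_of_pos hxp _))

/-- For small radii the comparison holds. -/
theorem small_linear (H : Sol n A B q u v) :
    ∃ δ : ℝ, 0 < δ ∧ ∀ l, 0 < l → l < δ → Above (gam n A) u l := by
  set g := gam n A with hg
  set N : ℝ := (n : ℝ) - 2 with hN
  set c := A + 2 with hc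
  have hn3 : (3 : ℝ) ≤ n := by exact_mod_cast H.hn
  have hc0 : 0 < c := by linarith [H.hA]
  have hu0 := H.up 0
  set ε := c * g * u 0 / 2 with hε
  have hε0 : 0 < ε := by
    have := H.hg
    positivity
  obtain ⟨r₀, hr₀, hphi⟩ := phi_near H hε0
  have hlim : ContinuousAt (fun x : EuclideanSpace ℝ (Fin n) => ‖x‖ ^ c * v x) 0 :=
    (continuous_norm.continuousAt.rpow_const (Or.inr hc0.le)).mul H.cv.continuousAt
  obtain ⟨r₁, hr₁, hsmall⟩ := Metric.continuousAt_iff.1 hlim ε hε0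
  set r := min r₀ r₁ with hr
  have hrp : 0 < r := lt_min hr₀ hr₁
  have hband : ∀ y : EuclideanSpace ℝ (Fin n), y ≠ 0 → ‖y‖ < r → 0 ≤ rayD g u y := by
    intro y hy hyr
    have h1 := hphi y hy (hyr.trans_le (min_le_left _ _))
    have hd : dist y 0 < r₁ := by
      rw [dist_zero_right]; exact hyr.trans_le (min_le_right _ _)
    have h2 := hsmall hd
    simp only [Real.dist_eq, norm_zero, zero_rpow hc0.ne', zero_mul, sub_zero] at h2
    replace h2 := (abs_lt.1 h2).2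
    simp only [Phi, ← hc, ← hg] at h1
    have h3 : 0 ≤ c * g * u 0 := by
      have := H.hg
      positivity
    exact nonneg_of_mul_nonneg_right (show 0 ≤ 2 * c * rayD g u y by rw [hε] at *; linarith)
      (by positivity)
  set ρ := r / 2 with hρd
  have hρ : 0 < ρ := half_pos hrp
  have : Nonempty (Fin n) := ⟨⟨0, by have := H.hn; omega⟩⟩
  have hne : ∀ y : EuclideanSpace ℝ (Fin n), ρ ≤ ‖y‖ → y ≠ 0 := fun y h =>
    norm_pos_iff.1 (hρ.trans_le h)
  obtain ⟨z, hz, hzmin⟩ := (isCompact_sphere (0 : EuclideanSpace ℝ (Fin n)) ρ).exists_isMinOn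
    (NormedSpace.sphere_nonempty.2 hρ.le) (fun y hy => ((laplacian_Om H (hne y (by
      rw [mem_sphere_zero_iff_norm] at hy; exact hy.ge))).1).continuousAt.continuousWithinAt)
  rw [mem_sphere_zero_iff_norm] at hz
  have hk := Om_pos H (hne z hz.ge)
  have hext : ∀ x, ρ ≤ ‖x‖ → Om A u z * (ρ / ‖x‖) ^ N ≤ Om A u x := fun x hx =>
    exterior_ge H.hn hρ (fun y hy => (laplacian_Om H (hne y hy)).1) (fun y hy => by
      rw [(laplacian_Om H (hne y hy.le)).2]
      exact neg_neg_of_pos (mul_pos (rpow_pos_of_pos (hρ.trans hy) _) (phi_pos H (hne y hy.le))))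
      (fun y hy => hzmin (by rwa [mem_sphere_zero_iff_norm]))
      (fun δ hδ => ⟨ρ, fun y hy => by linarith [Om_pos H (hne y hy)]⟩) hx
  obtain ⟨M, hM⟩ := (isCompact_closedBall (0 : EuclideanSpace ℝ (Fin n)) 1).bddAbove_image
    H.cu.continuousOn
  have hM0 : 0 < M := hu0.trans_le (hM (mem_image_of_mem _ (by simp)))
  have hg2 : 0 < 2 * g := by linarith [H.hg]
  set K := Om A u z * ρ ^ N / M with hK
  have hK0 : 0 < K := by positivity
  refine ⟨min ρ (min 1 (K ^ (2 * g)⁻¹)), lt_min hρ (lt_min one_pos (rpow_pos_of_pos hK0 _)),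
    fun l hl hlδ x hx => ?_⟩
  obtain ⟨hl1, hl2, hl3⟩ : l < ρ ∧ l < 1 ∧ l < K ^ (2 * g)⁻¹ := by
    simpa using hlδ
  rcases lt_or_ge ‖x‖ r with h | h
  · exact above_of_ray H.u2 hband hl hx h
  have hxρ : ρ ≤ ‖x‖ := by linarith
  have hxp : 0 < ‖x‖ := hρ.trans_le hxρ
  have hy : u (invp l x) ≤ M := hM (mem_image_of_mem _ (by
    rw [mem_closedBall_zero_iff, norm_invp hl (norm_pos_iff.1 hxp), div_le_iff₀ hxp]
    nlinarith))
  have hlg : l ^ (2 * g) ≤ K := by
    refine (rpow_le_rpow hl.le hl3.le hg2.le).trans_eq ?_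
    rw [← rpow_mul hK0.le, inv_mul_cancel₀ hg2.ne', rpow_one]
  have h4 : l ^ (-c) * refl (N / 2) u l x ≤ Om A u z * (ρ / ‖x‖) ^ N := by
    rw [Sphere.refl, show 2 * (N / 2) = N by ring, div_rpow hl.le hxp.le, div_rpow hρ.le hxp.le]
    have e : l ^ (-c) * (l ^ N / ‖x‖ ^ N * u (invp l x)) =
        l ^ (2 * g) * u (invp l x) / ‖x‖ ^ N := by
      rw [show 2 * g = -c + N by rw [hg, gam, hc, hN]; ring, rpow_add hl]; ring
    rw [e, ← mul_div_assoc]
    refine div_le_div_of_nonneg_right ?_ (rpow_nonneg hxp.le N)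
    refine (mul_le_mul hlg hy (H.up _).le hK0.le).trans_eq ?_
    rw [hK]; field_simp
  have h5 : 0 ≤ ‖x‖ ^ (-c) * (u x - refl g u l x) := by
    rw [hg, hc, ← diff_eq hl (norm_pos_iff.1 hxp), ← hc]
    linarith [hext x hxρ]
  exact sub_nonneg.1 (nonneg_of_mul_nonneg_right h5 (rpow_pos_of_pos hxp _))

/-- The comparison holds for every radius, so `u` is bounded below by a power. -/
theorem lower_linear (H : Sol n A B q u v) :
    ∃ k, 0 < k ∧ ∀ x, (1 : ℝ) ≤ ‖x‖ → k * ‖x‖ ^ (-gam n A) ≤ u x := by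
  set g := gam n A
  have hall : ∀ l, 0 < l → Above g u l := by
    by_contra hne
    push Not at hne
    obtain ⟨M, hM, hMne⟩ := hne
    obtain ⟨δ, hδ, hs⟩ := small_linear H
    set T := {L : ℝ | ∀ l, 0 < l → l < L → Above g u l} with hT
    have hbdd : BddAbove T := ⟨M, fun L hL => by
      by_contra h
      push Not at h
      exact hMne (hL M hM h)⟩
    have hmem : δ ∈ T := hs
    set L := sSup T with hLd
    have hL : 0 < L := hδ.trans_le (le_csSup hbdd hmem)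
    have hLT : ∀ l, 0 < l → l < L → Above g u l := fun l hl hlL => by
      obtain ⟨L', hL', hlt⟩ := exists_lt_of_lt_csSup ⟨_, hmem⟩ hlL
      exact hL' l hl hlt
    obtain ⟨ε, hε, ho⟩ := open_linear H hL hLT
    have hnew : L + ε ∈ T := fun l hl hlt => by
      rcases lt_or_ge l L with h | h
      · exact hLT l hl h
      · exact ho l h hlt
    have := le_csSup hbdd hnew
    linarith
  obtain ⟨z, -, hz⟩ := (isCompact_closedBall (0 : EuclideanSpace ℝ (Fin n)) 1).exists_isMinOn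
    ⟨0, by simp⟩ H.cu.continuousOn
  refine ⟨u z, H.up z, fun x hx => ?_⟩
  have hxp : 0 < ‖x‖ := one_pos.trans_le hx
  set θ := ‖x‖⁻¹ • x with hθd
  have hθ : ‖θ‖ = 1 := norm_smul_inv_norm (norm_pos_iff.1 hxp)
  have hxθ : ‖x‖ • θ = x := by rw [hθd, smul_smul, mul_inv_cancel₀ hxp.ne', one_smul]
  have := ray_mono (L := ‖x‖) (fun l hl _ => hall l hl) hθ one_pos hx le_rfl
  rw [one_rpow, one_mul, one_smul, hxθ] at this
  rw [rpow_neg hxp.le, ← div_eq_mul_inv, div_le_iff₀ (rpow_pos_of_pos hxp g), mul_comm (u x)]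
  exact (hz (by rw [mem_closedBall_zero_iff, hθ])).trans this

/-- No positive entire solution in the subcritical range when `p = 1`. -/
theorem no_solution_one (hn : 2 ≤ n) (hq : 0 < q)
    (hsub : (n : ℝ) - 2 < ((n : ℝ) + A) / (1 + 1) + ((n : ℝ) + B) / (q + 1))
    (hu : Continuous u) (hv : Continuous v) (hu2 : ContDiffOn ℝ 2 u {0}ᶜ)
    (hv2 : ContDiffOn ℝ 2 v {0}ᶜ) (hup : ∀ x, 0 < u x) (hvp : ∀ x, 0 < v x)
    (he1 : ∀ x, x ≠ 0 → -(Δ u x) = ‖x‖ ^ A * v x ^ (1 : ℝ))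
    (he2 : ∀ x, x ≠ 0 → -(Δ v x) = ‖x‖ ^ B * u x ^ q) : False := by
  by_cases hold : n = 2 ∨ A ≤ -2 ∨ B ≤ -2
  · exact Vale.Agent.P100.no_solution hn one_pos hq hold hu hv hu2 hv2 hup hvp he1 he2
  push Not at hold
  obtain ⟨hn2, hA, hB⟩ := hold
  have hn3 : 3 ≤ n := by omega
  have hn3' : (3 : ℝ) ≤ n := by exact_mod_cast hn3
  rcases le_or_gt q 1 with hq1 | hq1
  · refine Sphere.no_solution hn3 one_pos hq hA hB ?_ ?_ hu hv hu2 hv2 hup hvp he1 he2
    · nlinarith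
    · nlinarith [mul_pos hq (show 0 < 2 + A by linarith)]
  have hcd : ∀ {w : EuclideanSpace ℝ (Fin n) → ℝ}, ContDiffOn ℝ 2 w {0}ᶜ →
      ∀ x, x ≠ 0 → ContDiffAt ℝ 2 w x := fun h x hx =>
    h.contDiffAt (isOpen_compl_singleton.mem_nhds hx)
  have hlapu : ∀ x, x ≠ 0 → Δ u x < 0 := fun x hx => by
    have := mul_pos (rpow_pos_of_pos (norm_pos_iff.2 hx) A) (rpow_pos_of_pos (hvp x) 1)
    linarith [he1 x hx]
  have hlapv : ∀ x, x ≠ 0 → Δ v x < 0 := fun x hx => by
    have := mul_pos (rpow_pos_of_pos (norm_pos_iff.2 hx) B) (rpow_pos_of_pos (hup x) q)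
    linarith [he2 x hx]
  rcases le_or_gt (gam n A) 0 with hg | hg
  · obtain ⟨k, hk, hlow⟩ := decay_ge hn3 hv (hcd hv2) hvp hlapv one_pos
    have hlow' : ∀ x : EuclideanSpace ℝ (Fin n), (1 : ℝ) ≤ ‖x‖ →
        k * ‖x‖ ^ (-((n : ℝ) - 2)) ≤ v x := fun x hx => by
      have := hlow x hx
      rwa [one_div, inv_rpow (norm_nonneg x), ← rpow_neg (norm_nonneg x)] at this
    obtain ⟨k₁, hk₁, h₁⟩ := improve one_pos hk one_pos (hcd hu2) hup he1 hlow'
    obtain ⟨k₂, hk₂, h₂⟩ := improve hq hk₁ (by norm_num : (0 : ℝ) < 2 * 1) (hcd hv2) hvp he2 h₁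
    refine false_of_growth hn3 hv (hcd hv2) hvp hlapv
      (σ := -(q * (1 * ((n : ℝ) - 2) - 2 - A) - 2 - B)) ?_ hk₂ h₂
    rw [gam] at hg
    nlinarith
  have hsub' : gam n A * (q - 1) < 4 + A + B := by
    rw [div_add_div _ _ (by norm_num) (by linarith), lt_div_iff₀ (by positivity)] at hsub
    rw [gam]
    linarith
  have H : Sol n A B q u v := ⟨hn3, hA, hB, hq1, hg, hsub', hu, hv, hcd hu2, hcd hv2, hup, hvp,
    fun x hx => by have := he1 x hx; rw [rpow_one] at this; linarith,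
    fun x hx => by linarith [he2 x hx]⟩
  obtain ⟨k, hk, hlow⟩ := lower_linear H
  set f : ℝ → ℝ := fun t => 1 * (q * t - 2 - B) - 2 - A with hf
  have iter : ∀ j : ℕ, ∃ k R, 0 < k ∧ 0 < R ∧ ∀ x : EuclideanSpace ℝ (Fin n), R ≤ ‖x‖ →
      k * ‖x‖ ^ (-(f^[j] (gam n A))) ≤ u x := by
    intro j
    induction j with
    | zero => exact ⟨k, 1, hk, one_pos, hlow⟩
    | succ j ih =>
      obtain ⟨k₁, R₁, hk₁, hR₁, h₁⟩ := ih
      obtain ⟨k₂, hk₂, h₂⟩ := improve hq hk₁ hR₁ (hcd hv2) hvp he2 h₁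
      obtain ⟨k₃, hk₃, h₃⟩ := improve one_pos hk₂ (by positivity) (hcd hu2) hup he1 h₂
      refine ⟨k₃, 2 * (2 * R₁), hk₃, by positivity, fun x hx => ?_⟩
      have := h₃ x hx
      rwa [Function.iterate_succ_apply']
  obtain ⟨j, hj⟩ := exists_iterate_neg one_pos hq hA hB (a := gam n A) (by linarith)
  obtain ⟨k', R', hk', -, hgr⟩ := iter j
  exact false_of_growth hn3 hu (hcd hu2) hup hlapu (σ := -(f^[j] (gam n A))) (neg_pos.2 hj) hk' hgr

end

end Vale.Agent.P100.Linear
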